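import Vale.Agent.Lib.P037.Copies

/-!
Matrices without the ordered pattern `1 1 / 1 0`: connectivity in a sample, and a construction
which never contains the pattern.
-/

namespace Vale.Agent.P037

open Finset Relation

variable {α β : Type*} [LinearOrder α] [LinearOrder β]

/-- edges of the sampled bipartite graph below `(r, c)` -/
def Link (A : α → β → Prop) (SR : Finset α) (SC : Finset β) (r : α) (c : β)
    (u v : α ⊕ β) : Prop :=
  ∃ y x, u = Sum.inl y ∧ v = Sum.inr x ∧ y ∈ SR ∧ x ∈ SC ∧ y ≤ r ∧ x ≤ c ∧ A y x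

lemma eqvGen_closed {V : Type*} {L : V → V → Prop} (S : V → Prop)
    (h : ∀ u v, L u v → (S u ↔ S v)) {u v : V} (huv : EqvGen L u v) : S u ↔ S v := by
  induction huv with
  | rel x y hxy => exact h x y hxy
  | refl x => exact Iff.rfl
  | symm x y _ ih => exact ih.symm
  | trans x y z _ _ ih1 ih2 => exact ih1.trans ih2

lemma link_mono (A : α → β → Prop) (SR : Finset α) (SC : Finset β) {r r' : α} {c c' : β}
    (hr : r ≤ r') (hc : c ≤ c') (u v : α ⊕ β) (h : Link A SR SC r c u v) :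
    Link A SR SC r' c' u v := by
  obtain ⟨y, x, h1, h2, h3, h4, h5, h6, h7⟩ := h
  exact ⟨y, x, h1, h2, h3, h4, h5.trans hr, h6.trans hc, h7⟩

lemma conn_mono (A : α → β → Prop) (SR : Finset α) (SC : Finset β) {r r' : α} {c c' : β}
    (hr : r ≤ r') (hc : c ≤ c') {u v : α ⊕ β} (h : EqvGen (Link A SR SC r c) u v) :
    EqvGen (Link A SR SC r' c') u v :=
  (EqvGen.mono (r := Link A SR SC r c) (p := Link A SR SC r' c')
    (fun u v huv => link_mono A SR SC hr hc u v huv)) u v h

lemma conn_mono' (A : α → β → Prop) {SR SR' : Finset α} {SC SC' : Finset β} {r : α} {c : β}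
    (hr : SR ⊆ SR') (hc : SC ⊆ SC') {u v : α ⊕ β} (h : EqvGen (Link A SR SC r c) u v) :
    EqvGen (Link A SR' SC' r c) u v :=
  (EqvGen.mono (r := Link A SR SC r c) (p := Link A SR' SC' r c) (fun u v huv => by
    obtain ⟨y, x, h1, h2, h3, h4, h5, h6, h7⟩ := huv
    exact ⟨y, x, h1, h2, hr h3, hc h4, h5, h6, h7⟩)) u v h

/-- the key step: the smallest column can be removed without disconnecting `r` and `c` -/
lemma conn_step (A : α → β → Prop) (SR : Finset α) (SC : Finset β) (r : α) (c : β)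
    (hfree : ∀ y ∈ SR, ∀ y' ∈ SR, ∀ x ∈ SC, ∀ x' ∈ SC, y < y' → x < x' →
      A y x → A y x' → A y' x → A y' x')
    (hr : r ∈ SR) (x0 : β) (hx0 : x0 ∈ SC) (hx0c : x0 < c) (hmin : ∀ x ∈ SC, x0 ≤ x)
    (hconn : EqvGen (Link A SR SC r c) (Sum.inl r) (Sum.inr c)) :
    EqvGen (Link A SR (SC.erase x0) r c) (Sum.inl r) (Sum.inr c) := by
  classical
  set L' := Link A SR (SC.erase x0) r c with hL'
  let K : α ⊕ β → Prop := fun v => EqvGen L' v (Sum.inr c)
  let E : Prop := ∃ y0 ∈ SR, y0 ≤ r ∧ A y0 x0 ∧ K (Sum.inl y0)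
  let S : α ⊕ β → Prop := fun v => K v ∨ (E ∧ (v = Sum.inr x0 ∨
    ∃ y ∈ SR, y ≤ r ∧ A y x0 ∧ v = Sum.inl y))
  have hKlink : ∀ {u v}, L' u v → (K u ↔ K v) := by
    intro u v huv
    constructor
    · intro h; exact EqvGen.trans _ _ _ (EqvGen.symm _ _ (EqvGen.rel _ _ huv)) h
    · intro h; exact EqvGen.trans _ _ _ (EqvGen.rel _ _ huv) h
  have hKx0 : ¬ K (Sum.inr x0) := by
    intro h
    have := (eqvGen_closed (fun v : α ⊕ β => v ≠ Sum.inr x0) (by
      rintro u v ⟨y, x, h1, h2, h3, h4, h5, h6, h7⟩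
      subst h1; subst h2
      have hx := (mem_erase.mp h4).1
      constructor
      · intro _ hc; exact hx (Sum.inr_injective hc)
      · intro _ hc; exact Sum.inl_ne_inr hc) h).mpr (by
        intro hc; exact hx0c.ne' (Sum.inr_injective hc))
    exact this rfl
  have hKnb : ∀ y, K (Sum.inl y) → ∃ x ∈ SC.erase x0, x ≤ c ∧ y ∈ SR ∧ y ≤ r ∧ A y x ∧
      K (Sum.inr x) := by
    intro y h
    by_contra hcon
    have := (eqvGen_closed (fun v : α ⊕ β => v ≠ Sum.inl y) (by
      rintro u v ⟨y', x, h1, h2, h3, h4, h5, h6, h7⟩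
      subst h1; subst h2
      constructor
      · intro _ hc; exact Sum.inr_ne_inl hc
      · intro _ hc
        have hy := Sum.inl_injective hc
        subst hy
        apply hcon
        refine ⟨x, h4, h6, h3, h5, h7, ?_⟩
        exact (hKlink ⟨y', x, rfl, rfl, h3, h4, h5, h6, h7⟩).mp h) h).mpr Sum.inr_ne_inl
    exact this rfl
  have hclosed : ∀ u v, Link A SR SC r c u v → (S u ↔ S v) := by
    rintro u v ⟨y, x, h1, h2, h3, h4, h5, h6, h7⟩
    subst h1; subst h2
    by_cases hx : x = x0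
    · subst hx
      constructor
      · rintro (h | ⟨hE, _⟩)
        · exact Or.inr ⟨⟨y, h3, h5, h7, h⟩, Or.inl rfl⟩
        · exact Or.inr ⟨hE, Or.inl rfl⟩
      · rintro (h | ⟨hE, _⟩)
        · exact absurd h hKx0
        · exact Or.inr ⟨hE, Or.inr ⟨y, h3, h5, h7, rfl⟩⟩
    · have hxe : x ∈ SC.erase x0 := mem_erase.mpr ⟨hx, h4⟩
      have hx0x : x0 < x := lt_of_le_of_ne (hmin x h4) (Ne.symm hx)
      have hl : L' (Sum.inl y) (Sum.inr x) := ⟨y, x, rfl, rfl, h3, hxe, h5, h6, h7⟩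
      constructor
      · rintro (h | ⟨⟨y0, hy0, hy0r, hA0, hK0⟩, h | ⟨y', hy', hy'r, hA', heq⟩⟩)
        · exact Or.inl ((hKlink hl).mp h)
        · exact absurd h Sum.inl_ne_inr
        · have heq' := Sum.inl_injective heq
          subst heq'
          left
          rcases lt_trichotomy y y0 with hlt | heq0 | hgt
          · have hA := hfree y h3 y0 hy0 x0 hx0 x h4 hlt hx0x hA' h7 hA0
            exact (hKlink ⟨y0, x, rfl, rfl, hy0, hxe, hy0r, h6, hA⟩).mp hK0
          · subst heq0; exact (hKlink hl).mp hK0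
          · obtain ⟨x', hx'e, hx'c, _, _, hAx', hKx'⟩ := hKnb y0 hK0
            have hx'S := (mem_erase.mp hx'e).2
            have hx0x' : x0 < x' := lt_of_le_of_ne (hmin x' hx'S) (Ne.symm (mem_erase.mp hx'e).1)
            have hA := hfree y0 hy0 y h3 x0 hx0 x' hx'S hgt hx0x' hA0 hAx' hA'
            have hKy := (hKlink ⟨y, x', rfl, rfl, h3, hx'e, h5, hx'c, hA⟩).mpr hKx'
            exact (hKlink hl).mp hKy
      · rintro (h | ⟨_, h | ⟨y', _, _, _, heq⟩⟩)
        · exact Or.inl ((hKlink hl).mpr h)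
        · exact absurd (Sum.inr_injective h) hx
        · exact absurd heq Sum.inr_ne_inl
  have hSr : S (Sum.inl r) := (eqvGen_closed S hclosed hconn).mpr (Or.inl (EqvGen.refl _))
  rcases hSr with h | ⟨⟨y0, hy0, hy0r, hA0, hK0⟩, h | ⟨y', hy', hy'r, hA', heq⟩⟩
  · exact h
  · exact absurd h Sum.inl_ne_inr
  · have heq' := Sum.inl_injective heq
    subst heq'
    rcases hy0r.lt_or_eq with hlt | heq0
    · obtain ⟨x', hx'e, hx'c, _, _, hAx', hKx'⟩ := hKnb y0 hK0
      have hx'S := (mem_erase.mp hx'e).2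
      have hx0x' : x0 < x' := lt_of_le_of_ne (hmin x' hx'S) (Ne.symm (mem_erase.mp hx'e).1)
      have hA := hfree y0 hy0 r hr x0 hx0 x' hx'S hlt hx0x' hA0 hAx' hA'
      exact (hKlink ⟨r, x', rfl, rfl, hr, hx'e, le_refl _, hx'c, hA⟩).mpr hKx'
    · subst heq0; exact hK0

/-- In a matrix without the pattern `1 1 / 1 0`, the last row and the last column of a connected
sample meet in a one. -/
lemma conn_imp (A : α → β → Prop) (SR : Finset α) (r : α) (c : β) (hr : r ∈ SR) :
    ∀ (n : ℕ) (SC : Finset β), SC.card = n →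
    (∀ y ∈ SR, ∀ y' ∈ SR, ∀ x ∈ SC, ∀ x' ∈ SC, y < y' → x < x' →
      A y x → A y x' → A y' x → A y' x') →
    EqvGen (Link A SR SC r c) (Sum.inl r) (Sum.inr c) → A r c := by
  intro n
  induction n with
  | zero =>
    intro SC hcard _ hconn
    have hSC : SC = ∅ := card_eq_zero.mp hcard
    have := (eqvGen_closed (fun v : α ⊕ β => v ≠ Sum.inl r) (by
      rintro u v ⟨y', x, h1, h2, h3, h4, h5, h6, h7⟩
      rw [hSC] at h4; simp at h4) hconn).mpr Sum.inr_ne_inl
    exact absurd rfl this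
  | succ n ih =>
    intro SC hcard hfree hconn
    have hne : SC.Nonempty := by
      rw [← card_pos, hcard]; omega
    set x0 := SC.min' hne with hx0
    have hx0S : x0 ∈ SC := min'_mem _ _
    have hmin : ∀ x ∈ SC, x0 ≤ x := fun x hx => min'_le _ _ hx
    by_cases hx0c : x0 < c
    · have h1 := conn_step A SR SC r c hfree hr x0 hx0S hx0c hmin hconn
      refine ih (SC.erase x0) (by rw [card_erase_of_mem hx0S, hcard]; rfl) ?_ h1
      intro y hy y' hy' x hx x' hx'
      exact hfree y hy y' hy' x (mem_of_mem_erase hx) x' (mem_of_mem_erase hx')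
    · push Not at hx0c
      have := (eqvGen_closed (fun v : α ⊕ β => Sum.elim (fun y => A y c) (fun x => x = c) v) (by
        rintro u v ⟨y', x, h1, h2, h3, h4, h5, h6, h7⟩
        subst h1; subst h2
        have hxc : x = c := le_antisymm h6 (hx0c.trans (hmin x h4))
        subst hxc
        simp [h7]) hconn).mpr (by simp)
      simpa using this

/-- `x` is the smallest sampled column in the row `r` -/
def LabR (A : α → β → Prop) (SC : Finset β) (r : α) (x : β) : Prop :=
  x ∈ SC ∧ A r x ∧ ∀ x' ∈ SC, A r x' → x ≤ x'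

/-- `y` is the smallest sampled row in the column `c` -/
def LabC (A : α → β → Prop) (SR : Finset α) (c : β) (y : α) : Prop :=
  y ∈ SR ∧ A y c ∧ ∀ y' ∈ SR, A y' c → y ≤ y'

omit [LinearOrder α] in
lemma labR_unique {A : α → β → Prop} {SC : Finset β} {r : α} {x x' : β}
    (h : LabR A SC r x) (h' : LabR A SC r x') : x = x' :=
  le_antisymm (h.2.2 _ h'.1 h'.2.1) (h'.2.2 _ h.1 h.2.1)

omit [LinearOrder β] in
lemma labC_unique {A : α → β → Prop} {SR : Finset α} {c : β} {y y' : α}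
    (h : LabC A SR c y) (h' : LabC A SR c y') : y = y' :=
  le_antisymm (h.2.2 _ h'.1 h'.2.1) (h'.2.2 _ h.1 h.2.1)

/-- the approximation: the labels of the row and of the column are connected in the sample -/
def Gam (A : α → β → Prop) (SR0 SR : Finset α) (SC : Finset β) (r : α) (c : β) : Prop :=
  ∃ x y, LabR A SC r x ∧ LabC A SR0 c y ∧ x ≤ c ∧ y ≤ r ∧
    EqvGen (Link A SR SC r c) (Sum.inr x) (Sum.inl y)

lemma gam_free (A : α → β → Prop) (SR0 SR : Finset α) (SC : Finset β) {r r' : α} {c c' : β}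
    (hr : r < r') (hc : c < c') (h1 : Gam A SR0 SR SC r c) (h2 : Gam A SR0 SR SC r c')
    (h3 : Gam A SR0 SR SC r' c) : Gam A SR0 SR SC r' c' := by
  obtain ⟨x1, y1, a1, a2, a3, a4, a5⟩ := h1
  obtain ⟨x2, y2, b1, b2, b3, b4, b5⟩ := h2
  obtain ⟨x3, y3, c1, c2, c3, c4, c5⟩ := h3
  have hx : x1 = x2 := labR_unique a1 b1
  have hy : y1 = y3 := labC_unique a2 c2
  subst hx; subst hy
  refine ⟨x3, y2, c1, b2, c3.trans hc.le, b4.trans hr.le, ?_⟩
  have a5' := conn_mono A SR SC hr.le hc.le a5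
  have b5' := conn_mono A SR SC hr.le (le_refl c') b5
  have c5' := conn_mono A SR SC (le_refl r') hc.le c5
  exact EqvGen.trans _ _ _ c5' (EqvGen.trans _ _ _ (EqvGen.symm _ _ a5') b5')

/-- if the approximation has a one where `A` has a zero, the sample contains the pattern -/
lemma gam_wrong (A : α → β → Prop) (SR0 SR : Finset α) (SC : Finset β) (h0 : SR0 ⊆ SR)
    (r : α) (c : β) (hg : Gam A SR0 SR SC r c) (hA : ¬ A r c) :
    ∃ y ∈ insert r SR, ∃ y' ∈ insert r SR, ∃ x ∈ insert c SC, ∃ x' ∈ insert c SC,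
      y < y' ∧ x < x' ∧ A y x ∧ A y x' ∧ A y' x ∧ ¬ A y' x' := by
  classical
  by_contra hcon
  push Not at hcon
  apply hA
  obtain ⟨x, y, hx, hy, hxc, hyr, hc⟩ := hg
  refine conn_imp A (insert r SR) r c (mem_insert_self _ _) _ (insert c SC) rfl ?_ ?_
  · intro y hy y' hy' x hx x' hx' h1 h2 h3 h4 h5
    exact hcon y hy y' hy' x hx x' hx' h1 h2 h3 h4 h5
  · have h1 : EqvGen (Link A (insert r SR) (insert c SC) r c) (Sum.inr x) (Sum.inl y) :=
      conn_mono' A (subset_insert _ _) (subset_insert _ _) hc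
    have h2 : Link A (insert r SR) (insert c SC) r c (Sum.inl r) (Sum.inr x) :=
      ⟨r, x, rfl, rfl, mem_insert_self _ _, mem_insert_of_mem hx.1, le_refl _, hxc, hx.2.1⟩
    have h3 : Link A (insert r SR) (insert c SC) r c (Sum.inl y) (Sum.inr c) :=
      ⟨y, c, rfl, rfl, mem_insert_of_mem (h0 hy.1), mem_insert_self _ _, hyr, le_refl _, hy.2.1⟩
    exact EqvGen.trans _ _ _ (EqvGen.rel _ _ h2) (EqvGen.trans _ _ _ h1 (EqvGen.rel _ _ h3))

end Vale.Agent.P037
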