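import Vale.Agent.Lib.P037.Prob

/-!
Two sampling lemmas: a union bound for copies in a sample, and the bound for ones of a 0/1
matrix which are not the largest corner of a sampled rectangle of ones.
-/

namespace Vale.Agent.P037

open Finset

variable {ι κ α β : Type*} [Fintype ι] [Fintype κ] [Fintype α] [Fintype β]
  [DecidableEq ι] [DecidableEq κ] [Nonempty α] [Nonempty β]

lemma pr_pair (i i' : ι) (j j' : κ) (hi : i ≠ i') (hj : j ≠ j') (Cp : α → α → β → β → Prop) :
    pr (fun ω : (ι → α) × (κ → β) => Cp (ω.1 i) (ω.1 i') (ω.2 j) (ω.2 j'))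
      = pr (fun x : (α × α) × (β × β) => Cp x.1.1 x.1.2 x.2.1 x.2.2) := by
  classical
  have he : Function.Injective (![i, i'] : Fin 2 → ι) := by
    intro a b hab
    fin_cases a <;> fin_cases b <;> simp_all
  have he' : Function.Injective (![j, j'] : Fin 2 → κ) := by
    intro a b hab
    fin_cases a <;> fin_cases b <;> simp_all
  have h1 := pr_comp_inj₂ (α := α) (β := β) ![i, i'] he ![j, j'] he'
    (fun z w => Cp (z 0) (z 1) (w 0) (w 1))
  have h2 := pr_equiv (Equiv.prodCongr (finTwoArrowEquiv α) (finTwoArrowEquiv β))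
    (fun x : (α × α) × (β × β) => Cp x.1.1 x.1.2 x.2.1 x.2.2)
  rw [← h2]
  exact h1

/-- union bound for copies in a sample -/
lemma pr_copy_le (Cp : α → α → β → β → Prop)
    (hne : ∀ y y' x x', Cp y y' x x' → y ≠ y' ∧ x ≠ x') :
    pr (fun ω : (ι → α) × (κ → β) => ∃ i i' j j', Cp (ω.1 i) (ω.1 i') (ω.2 j) (ω.2 j'))
      ≤ ((Fintype.card ι : ℝ) ^ 2 * (Fintype.card κ : ℝ) ^ 2) *
        pr (fun x : (α × α) × (β × β) => Cp x.1.1 x.1.2 x.2.1 x.2.2) := by
  classical
  have h1 : pr (fun ω : (ι → α) × (κ → β) => ∃ i i' j j', Cp (ω.1 i) (ω.1 i') (ω.2 j) (ω.2 j'))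
      = pr (fun ω : (ι → α) × (κ → β) => ∃ q : (ι × ι) × (κ × κ),
        Cp (ω.1 q.1.1) (ω.1 q.1.2) (ω.2 q.2.1) (ω.2 q.2.2)) := by
    apply pr_congr
    intro ω
    constructor
    · rintro ⟨i, i', j, j', h⟩
      exact ⟨((i, i'), (j, j')), h⟩
    · rintro ⟨⟨⟨i, i'⟩, ⟨j, j'⟩⟩, h⟩
      exact ⟨i, i', j, j', h⟩
  rw [h1]
  have h2 := pr_exists_le_mul (Ω := (ι → α) × (κ → β)) (ι := (ι × ι) × (κ × κ))
    (fun q ω => Cp (ω.1 q.1.1) (ω.1 q.1.2) (ω.2 q.2.1) (ω.2 q.2.2))
    (p := pr (fun x : (α × α) × (β × β) => Cp x.1.1 x.1.2 x.2.1 x.2.2)) (by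
      rintro ⟨⟨i, i'⟩, ⟨j, j'⟩⟩
      by_cases hi : i = i'
      · have : pr (fun ω : (ι → α) × (κ → β) => Cp (ω.1 i) (ω.1 i') (ω.2 j) (ω.2 j')) = 0 := by
          apply pr_eq_zero
          intro ω hω
          exact (hne _ _ _ _ hω).1 (by rw [hi])
        simp only [this]
        exact pr_nonneg _
      by_cases hj : j = j'
      · have : pr (fun ω : (ι → α) × (κ → β) => Cp (ω.1 i) (ω.1 i') (ω.2 j) (ω.2 j')) = 0 := by
          apply pr_eq_zero
          intro ω hω
          exact (hne _ _ _ _ hω).2 (by rw [hj])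
        simp only [this]
        exact pr_nonneg _
      · exact (pr_pair i i' j j' hi hj Cp).le)
  refine h2.trans (le_of_eq ?_)
  congr 1
  simp only [Fintype.card_prod]
  push_cast
  ring

/-- a bipartite graph on `N + N` vertices without 4-cycles has few edges -/
lemma card_sq_le_of_no_rect (U : Finset (ι × κ)) (hcard : Fintype.card ι = Fintype.card κ)
    (hU : ∀ i i' j j', i ≠ i' → j ≠ j' → (i, j) ∈ U → (i, j') ∈ U → (i', j) ∈ U →
      (i', j') ∈ U → False) :
    U.card ^ 2 ≤ Fintype.card ι * (U.card + (Fintype.card ι) ^ 2) := by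
  classical
  let d : ι → ℕ := fun i => (univ.filter fun j => (i, j) ∈ U).card
  have hd : U.card = ∑ i, d i := by
    rw [card_eq_sum_card_fiberwise (f := fun x : ι × κ => x.1) (t := univ) (by intro x _; simp)]
    apply sum_congr rfl
    intro i _
    apply card_bij (fun x _ => x.2)
    · rintro ⟨x, y⟩ h
      simp only [mem_filter, mem_univ, true_and] at h ⊢
      rw [← h.2]; exact h.1
    · rintro ⟨x, y⟩ h ⟨x', y'⟩ h' hxy
      simp only [mem_filter] at h h'
      simp only at hxy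
      rw [h.2, h'.2, hxy]
    · intro b hb
      exact ⟨(i, b), by simpa using hb, rfl⟩
  have h1 : U.card ^ 2 ≤ Fintype.card ι * ∑ i, d i ^ 2 := by
    rw [hd]
    have := sq_sum_le_card_mul_sum_sq (s := (univ : Finset ι)) (f := d)
    simpa using this
  refine h1.trans (Nat.mul_le_mul_left _ ?_)
  -- count triples
  have h2 : ∑ i, d i ^ 2 = (univ.filter fun t : ι × (κ × κ) => (t.1, t.2.1) ∈ U ∧ (t.1, t.2.2) ∈ U).card := by
    rw [card_eq_sum_card_fiberwise (f := fun x : ι × (κ × κ) => x.1) (t := univ)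
      (by intro x _; simp)]
    apply sum_congr rfl
    intro i _
    have : d i ^ 2 = ((univ.filter fun j => (i, j) ∈ U) ×ˢ (univ.filter fun j => (i, j) ∈ U)).card := by
      rw [card_product, sq]
    rw [this]
    symm
    apply card_bij (fun x _ => x.2)
    · rintro ⟨x, y, z⟩ h
      simp only [mem_filter, mem_univ, true_and, mem_product] at h ⊢
      obtain ⟨h1, h2⟩ := h
      subst h2; exact h1
    · rintro ⟨x, y⟩ h ⟨x', y'⟩ h' hxy
      simp only [mem_filter] at h h'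
      simp only at hxy
      rw [h.2, h'.2, hxy]
    · intro b hb
      exact ⟨(i, b), by simpa using hb, rfl⟩
  rw [h2]
  have h3 : (univ.filter fun t : ι × (κ × κ) => (t.1, t.2.1) ∈ U ∧ (t.1, t.2.2) ∈ U)
      = (univ.filter fun t : ι × (κ × κ) => t.2.1 = t.2.2 ∧ (t.1, t.2.1) ∈ U) ∪
        (univ.filter fun t : ι × (κ × κ) => t.2.1 ≠ t.2.2 ∧ (t.1, t.2.1) ∈ U ∧ (t.1, t.2.2) ∈ U) := by
    ext ⟨i, j, j'⟩
    simp only [mem_filter, mem_univ, true_and, mem_union]
    constructor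
    · intro h
      by_cases hj : j = j'
      · exact Or.inl ⟨hj, h.1⟩
      · exact Or.inr ⟨hj, h⟩
    · rintro (⟨hj, h⟩ | ⟨_, h⟩)
      · subst hj; exact ⟨h, h⟩
      · exact h
  rw [h3]
  refine (card_union_le _ _).trans (Nat.add_le_add ?_ ?_)
  · apply card_le_card_of_injOn (fun t => (t.1, t.2.1))
    · rintro ⟨i, j, j'⟩ h
      simp only [coe_filter, mem_univ, true_and, Set.mem_ofPred_eq] at h
      exact_mod_cast h.2
    · rintro ⟨i, j, j'⟩ h ⟨i2, j2, j2'⟩ h' heq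
      simp only [coe_filter, mem_univ, true_and, Set.mem_ofPred_eq] at h h'
      simp only [Prod.mk.injEq] at heq ⊢
      refine ⟨heq.1, heq.2, ?_⟩
      rw [← h.1, ← h'.1, heq.2]
  · have h4 : (univ.filter fun t : ι × (κ × κ) => t.2.1 ≠ t.2.2 ∧ (t.1, t.2.1) ∈ U ∧ (t.1, t.2.2) ∈ U).card
        ≤ (univ : Finset (κ × κ)).card := by
      apply card_le_card_of_injOn (fun t => t.2)
      · intro t _; simp
      · rintro ⟨i, j, j'⟩ h ⟨i2, j2, j2'⟩ h' heq
        simp only [coe_filter, mem_univ, true_and, Set.mem_ofPred_eq] at h h'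
        simp only [Prod.mk.injEq] at heq ⊢
        refine ⟨?_, heq.1, heq.2⟩
        by_contra hne
        obtain ⟨h1, h2⟩ := heq
        subst h1; subst h2
        exact hU i i2 j j' hne h.1 h.2.1 h.2.2 h'.2.1 h'.2.2
    refine h4.trans (le_of_eq ?_)
    rw [card_univ, Fintype.card_prod, ← hcard, sq]

variable [LinearOrder α] [LinearOrder β]

/-- A one which is not the largest corner of a rectangle of ones inside the sample. -/
def Unc (A : α → β → Prop) (Z : ι → α) (W : κ → β) (i : ι) (j : κ) : Prop :=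
  A (Z i) (W j) ∧ ∀ i', i' ≠ i → ∀ j', j' ≠ j → Z i' ≤ Z i → W j' ≤ W j →
    A (Z i') (W j') → A (Z i') (W j) → ¬ A (Z i) (W j')

lemma unc_no_rect (A : α → β → Prop) (Z : ι → α) (W : κ → β) (i i' : ι) (j j' : κ)
    (hi : i ≠ i') (hj : j ≠ j') (h1 : Unc A Z W i j) (h2 : Unc A Z W i j')
    (h3 : Unc A Z W i' j) (h4 : Unc A Z W i' j') : False := by
  rcases le_total (Z i) (Z i') with hz | hz <;> rcases le_total (W j) (W j') with hw | hw
  · exact h4.2 i hi j hj hz hw h1.1 h2.1 h3.1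
  · exact h3.2 i hi j' hj.symm hz hw h2.1 h1.1 h4.1
  · exact h2.2 i' hi.symm j hj hz hw h3.1 h4.1 h1.1
  · exact h1.2 i' hi.symm j' hj.symm hz hw h4.1 h3.1 h2.1

lemma pr_unc_symm (A : α → β → Prop) (i i0 : ι) (j j0 : κ) :
    pr (fun ω : (ι → α) × (κ → β) => Unc A ω.1 ω.2 i j)
      = pr (fun ω : (ι → α) × (κ → β) => Unc A ω.1 ω.2 i0 j0) := by
  classical
  have h := pr_comp_inj₂ (α := α) (β := β) (ι := ι) (κ := ι) (ι' := κ) (κ' := κ)
    (Equiv.swap i i0) (Equiv.swap i i0).injective (Equiv.swap j j0) (Equiv.swap j j0).injective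
    (fun Z W => Unc A Z W i0 j0)
  rw [← h]
  apply pr_congr
  rintro ⟨Z, W⟩
  simp only [Unc, Equiv.swap_apply_right]
  constructor
  · rintro ⟨h1, h2⟩
    refine ⟨h1, fun i' hi' j' hj' => h2 _ ?_ _ ?_⟩
    · intro hcon
      apply hi'
      have := congrArg (Equiv.swap i i0) hcon
      simpa using this
    · intro hcon
      apply hj'
      have := congrArg (Equiv.swap j j0) hcon
      simpa using this
  · rintro ⟨h1, h2⟩
    refine ⟨h1, fun i' hi' j' hj' => ?_⟩
    have h3 := h2 (Equiv.swap i i0 i') (by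
      intro hcon
      apply hi'
      have := congrArg (Equiv.swap i i0) hcon
      simpa using this) (Equiv.swap j j0 j') (by
      intro hcon
      apply hj'
      have := congrArg (Equiv.swap j j0) hcon
      simpa using this)
    simp only [Equiv.swap_apply_self] at h3
    exact h3

lemma pr_unc_le (A : α → β → Prop) (hcard : Fintype.card ι = Fintype.card κ) (i0 : ι) (j0 : κ) :
    (pr (fun ω : (ι → α) × (κ → β) => Unc A ω.1 ω.2 i0 j0)) ^ 2 * (Fintype.card ι : ℝ) ≤ 2 := by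
  classical
  set p := pr (fun ω : (ι → α) × (κ → β) => Unc A ω.1 ω.2 i0 j0) with hp
  set N : ℝ := (Fintype.card ι : ℝ) with hN
  have hNκ : (Fintype.card κ : ℝ) = N := by rw [hN, hcard]
  have hNpos : 0 < N := by rw [hN]; exact_mod_cast Fintype.card_pos_iff.mpr ⟨i0⟩
  set M : ℝ := (Fintype.card ((ι → α) × (κ → β)) : ℝ) with hM
  have hMpos : 0 < M := by rw [hM]; exact_mod_cast Fintype.card_pos
  let U : (ι → α) × (κ → β) → Finset (ι × κ) := fun ω => univ.filter fun q => Unc A ω.1 ω.2 q.1 q.2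
  have hsum : ∑ ω, ((U ω).card : ℝ) = N ^ 2 * p * M := by
    have h1 : ∑ ω, ((U ω).card : ℝ) = ∑ q : ι × κ,
        ((univ.filter fun ω : (ι → α) × (κ → β) => Unc A ω.1 ω.2 q.1 q.2).card : ℝ) := by
      have h2 : ∀ ω, ((U ω).card : ℝ) = ∑ q : ι × κ, if Unc A ω.1 ω.2 q.1 q.2 then (1 : ℝ) else 0 := by
        intro ω
        rw [sum_boole]
      have h3 : ∀ q : ι × κ, ((univ.filter fun ω : (ι → α) × (κ → β) => Unc A ω.1 ω.2 q.1 q.2).card : ℝ)
          = ∑ ω : (ι → α) × (κ → β), if Unc A ω.1 ω.2 q.1 q.2 then (1 : ℝ) else 0 := by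
        intro q
        rw [sum_boole]
      simp only [h2, h3]
      exact sum_comm
    rw [h1]
    have h4 : ∀ q : ι × κ, ((univ.filter fun ω : (ι → α) × (κ → β) => Unc A ω.1 ω.2 q.1 q.2).card : ℝ)
        = p * M := by
      intro q
      have h5 := pr_unc_symm (α := α) (β := β) A q.1 i0 q.2 j0
      rw [← hp] at h5
      rw [pr_eq] at h5
      rw [← h5, div_mul_cancel₀ _ hMpos.ne']
    simp only [h4, sum_const, card_univ, Fintype.card_prod, nsmul_eq_mul]
    push_cast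
    rw [hNκ, ← hN]
    ring
  have hpt : ∀ ω, ((U ω).card : ℝ) ^ 2 ≤ N * ((U ω).card + N ^ 2) := by
    intro ω
    have := card_sq_le_of_no_rect (U ω) hcard (by
      intro i i' j j' hi hj h1 h2 h3 h4
      simp only [U, mem_filter, mem_univ, true_and] at h1 h2 h3 h4
      exact unc_no_rect A ω.1 ω.2 i i' j j' hi hj h1 h2 h3 h4)
    rw [hN]
    exact_mod_cast this
  have hcs : (∑ ω, ((U ω).card : ℝ)) ^ 2 ≤ M * ∑ ω, ((U ω).card : ℝ) ^ 2 := by
    have := sq_sum_le_card_mul_sum_sq (s := (univ : Finset ((ι → α) × (κ → β))))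
      (f := fun ω => ((U ω).card : ℝ))
    rwa [card_univ] at this
  have hs2 : ∑ ω, ((U ω).card : ℝ) ^ 2 ≤ N * (N ^ 2 * p * M) + N ^ 3 * M := by
    calc ∑ ω, ((U ω).card : ℝ) ^ 2 ≤ ∑ ω, N * ((U ω).card + N ^ 2) := sum_le_sum fun ω _ => hpt ω
      _ = N * (∑ ω, ((U ω).card : ℝ)) + N ^ 3 * M := by
        rw [← mul_sum, sum_add_distrib, sum_const, card_univ, nsmul_eq_mul]
        ring
      _ = N * (N ^ 2 * p * M) + N ^ 3 * M := by rw [hsum]
  rw [hsum] at hcs
  have hp1 : p ≤ 1 := pr_le_one _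
  have hp0 : 0 ≤ p := pr_nonneg _
  have h6 : (N ^ 2 * p * M) ^ 2 ≤ M * (N * (N ^ 2 * p * M) + N ^ 3 * M) :=
    hcs.trans (by gcongr)
  have h7 : (N ^ 3 * M ^ 2) * (p ^ 2 * N) ≤ (N ^ 3 * M ^ 2) * (p + 1) := by nlinarith [h6]
  have h8 : p ^ 2 * N ≤ p + 1 := le_of_mul_le_mul_left h7 (by positivity)
  linarith

end Vale.Agent.P037
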