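import Mathlib

/-!
Uniform probabilities on finite types, used for the sampling arguments.
-/

namespace Vale.Agent.P037

open Finset

section basic

variable {Ω Ω' : Type*} [Fintype Ω] [Fintype Ω']

open Classical in
/-- uniform probability of an event on a finite type -/
noncomputable def pr (Q : Ω → Prop) : ℝ :=
  ((univ.filter Q).card : ℝ) / (Fintype.card Ω : ℝ)

lemma pr_eq (Q : Ω → Prop) [DecidablePred Q] :
    pr Q = ((univ.filter Q).card : ℝ) / (Fintype.card Ω : ℝ) := by
  unfold pr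
  congr!

lemma pr_nonneg (Q : Ω → Prop) : 0 ≤ pr Q := by
  unfold pr; positivity

lemma pr_le_one (Q : Ω → Prop) : pr Q ≤ 1 := by
  classical
  unfold pr
  apply div_le_one_of_le₀ _ (by positivity)
  exact_mod_cast card_le_univ _

lemma pr_mono {Q Q' : Ω → Prop} (h : ∀ ω, Q ω → Q' ω) : pr Q ≤ pr Q' := by
  classical
  rw [pr_eq, pr_eq]
  gcongr
  exact h _

lemma pr_congr {Q Q' : Ω → Prop} (h : ∀ ω, Q ω ↔ Q' ω) : pr Q = pr Q' := by
  have : Q = Q' := by funext ω; exact propext (h ω)
  rw [this]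

lemma pr_false : pr (fun _ : Ω => False) = 0 := by
  classical
  unfold pr
  simp

lemma pr_eq_zero {Q : Ω → Prop} (h : ∀ ω, ¬ Q ω) : pr Q = 0 := by
  rw [← pr_false (Ω := Ω)]
  exact pr_congr fun ω => ⟨fun hq => h ω hq, fun hf => hf.elim⟩

lemma pr_or_le (Q Q' : Ω → Prop) : pr (fun ω => Q ω ∨ Q' ω) ≤ pr Q + pr Q' := by
  classical
  rw [pr_eq, pr_eq, pr_eq, ← add_div]
  gcongr
  rw [filter_or]
  exact_mod_cast card_union_le _ _

lemma pr_exists_le {ι : Type*} [Fintype ι] (Q : ι → Ω → Prop) :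
    pr (fun ω => ∃ i, Q i ω) ≤ ∑ i, pr (Q i) := by
  classical
  rw [pr_eq, sum_congr rfl (fun i _ => pr_eq (Q i)), ← sum_div]
  gcongr
  have : (univ.filter fun ω => ∃ i, Q i ω) = univ.biUnion fun i => univ.filter (Q i) := by
    ext ω; simp
  rw [this]
  exact_mod_cast card_biUnion_le

lemma pr_exists_le_mul {ι : Type*} [Fintype ι] (Q : ι → Ω → Prop) {p : ℝ}
    (h : ∀ i, pr (Q i) ≤ p) :
    pr (fun ω => ∃ i, Q i ω) ≤ (Fintype.card ι : ℝ) * p := by
  refine (pr_exists_le Q).trans ?_
  calc ∑ i, pr (Q i) ≤ ∑ _i : ι, p := sum_le_sum fun i _ => h i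
    _ = (Fintype.card ι : ℝ) * p := by simp

lemma pr_equiv (e : Ω ≃ Ω') (Q : Ω' → Prop) : pr (fun ω => Q (e ω)) = pr Q := by
  classical
  unfold pr
  rw [Fintype.card_congr e]
  congr 2
  apply card_bij (fun a _ => e a)
  · intro a ha; simpa using ha
  · intro a _ b _ hab; exact e.injective hab
  · intro b hb
    refine ⟨e.symm b, ?_, by simp⟩
    simpa using hb

variable {α β : Type*} [Fintype α] [Fintype β]

lemma pr_prod (Q : α × β → Prop) :
    pr Q = (∑ a, pr (fun b => Q (a, b))) / (Fintype.card α : ℝ) := by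
  classical
  unfold pr
  rw [← sum_div, div_div, Fintype.card_prod, Nat.cast_mul, mul_comm (Fintype.card β : ℝ)]
  congr 1
  have : (univ.filter Q).card = ∑ a : α, (univ.filter fun b => Q (a, b)).card := by
    rw [card_eq_sum_card_fiberwise (f := fun x : α × β => x.1) (t := univ) (by intro x _; simp)]
    apply sum_congr rfl
    intro a _
    apply card_bij (fun x _ => x.2)
    · rintro ⟨x, y⟩ h
      simp only [mem_filter, mem_univ, true_and] at h ⊢
      obtain ⟨h1, h2⟩ := h
      subst h2; exact h1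
    · rintro ⟨x, y⟩ h ⟨x', y'⟩ h' hxy
      simp only [mem_filter, mem_univ, true_and] at h h'
      simp only at hxy
      rw [h.2, h'.2, hxy]
    · intro b hb
      exact ⟨(a, b), by simpa using hb, rfl⟩
  exact_mod_cast this

lemma pr_prod_le (Q : α × β → Prop) {p : ℝ} (hp : 0 ≤ p)
    (h : ∀ a, pr (fun b => Q (a, b)) ≤ p) : pr Q ≤ p := by
  rw [pr_prod]
  rcases Nat.eq_zero_or_pos (Fintype.card α) with h0 | h0
  · rw [h0]; simpa using hp
  · rw [div_le_iff₀ (by exact_mod_cast h0)]
    calc ∑ a, pr (fun b => Q (a, b)) ≤ ∑ _a : α, p := sum_le_sum fun a _ => h a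
      _ = p * Fintype.card α := by simp [mul_comm]

lemma pr_prod_le' (Q : α × β → Prop) {p : ℝ} (hp : 0 ≤ p)
    (h : ∀ b, pr (fun a => Q (a, b)) ≤ p) : pr Q ≤ p := by
  rw [← pr_equiv (Equiv.prodComm β α) Q]
  exact pr_prod_le _ hp h

lemma exists_pr_le [Nonempty α] (Q : α × β → Prop) :
    ∃ a, pr (fun b => Q (a, b)) ≤ pr Q := by
  by_contra hcon
  push Not at hcon
  have h1 : ∑ _a : α, pr Q < ∑ a, pr (fun b => Q (a, b)) :=
    sum_lt_sum_of_nonempty univ_nonempty fun a _ => hcon a
  rw [sum_const, card_univ, nsmul_eq_mul] at h1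
  have h2 := pr_prod Q
  have h3 : (0 : ℝ) < Fintype.card α := by exact_mod_cast Fintype.card_pos
  rw [eq_div_iff h3.ne'] at h2
  linarith

lemma pr_fst [Nonempty β] (Q : α → Prop) : pr (fun x : α × β => Q x.1) = pr Q := by
  classical
  rw [pr_prod]
  have : ∀ a, pr (fun _ : β => Q a) = if Q a then 1 else 0 := by
    intro a
    unfold pr
    split_ifs with h
    · simp [h]
    · simp [h]
  simp only [this]
  unfold pr
  simp

lemma pr_snd [Nonempty α] (Q : β → Prop) : pr (fun x : α × β => Q x.2) = pr Q := by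
  rw [← pr_equiv (Equiv.prodComm β α)]
  exact pr_fst Q

end basic

section functions

variable {ι κ α : Type*} [Fintype ι] [Fintype κ] [Fintype α] [DecidableEq ι] [DecidableEq κ]

/-- marginals of the uniform distribution on a function space -/
lemma pr_comp_inj [Nonempty α] (e : κ → ι) (he : Function.Injective e) (Q : (κ → α) → Prop) :
    pr (fun Z : ι → α => Q (fun k => Z (e k))) = pr Q := by
  classical
  let E1 : (ι → α) ≃ (({x // x ∈ Set.range e} → α) × ({x // ¬ x ∈ Set.range e} → α)) :=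
    Equiv.piEquivPiSubtypeProd (fun x => x ∈ Set.range e) (fun _ => α)
  let E2 : ({x // x ∈ Set.range e} → α) ≃ (κ → α) :=
    Equiv.arrowCongr (Equiv.ofInjective e he).symm (Equiv.refl α)
  let E : (ι → α) ≃ ((κ → α) × ({x // ¬ x ∈ Set.range e} → α)) :=
    E1.trans (Equiv.prodCongr E2 (Equiv.refl _))
  have h1 : ∀ Z : ι → α, (E Z).1 = fun k => Z (e k) := by
    intro Z
    funext k
    rfl
  have h2 : pr (fun Z : ι → α => Q (fun k => Z (e k))) =
      pr (fun Z : ι → α => Q (E Z).1) := pr_congr fun Z => by rw [h1 Z]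
  rw [h2]
  have h3 := pr_equiv E (fun x => Q x.1)
  rw [h3]
  exact pr_fst Q

variable {ι' κ' β : Type*} [Fintype ι'] [Fintype κ'] [Fintype β] [DecidableEq ι'] [DecidableEq κ']

lemma pr_comp_inj₂ [Nonempty α] [Nonempty β] (e : κ → ι) (he : Function.Injective e)
    (e' : κ' → ι') (he' : Function.Injective e')
    (Q : (κ → α) → (κ' → β) → Prop) :
    pr (fun x : (ι → α) × (ι' → β) => Q (fun k => x.1 (e k)) (fun k => x.2 (e' k)))
      = pr (fun x : (κ → α) × (κ' → β) => Q x.1 x.2) := by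
  classical
  -- first marginalise the second coordinate
  have h1 : pr (fun x : (ι → α) × (ι' → β) => Q (fun k => x.1 (e k)) (fun k => x.2 (e' k)))
      = pr (fun x : (ι → α) × (κ' → β) => Q (fun k => x.1 (e k)) x.2) := by
    rw [pr_prod, pr_prod]
    congr 1
    apply sum_congr rfl
    intro Z _
    exact pr_comp_inj e' he' (fun w => Q (fun k => Z (e k)) w)
  rw [h1, ← pr_equiv (Equiv.prodComm (κ' → β) (ι → α)), ← pr_equiv (Equiv.prodComm (κ' → β) (κ → α))]
  rw [pr_prod, pr_prod]
  congr 1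
  apply sum_congr rfl
  intro w _
  exact pr_comp_inj e he (fun z => Q z w)

/-- Exchangeability: a sample point is `T`-extremal among the sample points with property `P`
with probability at most `1 / (number of sample points)`. -/
lemma pr_extremal_le [Nonempty α] (i0 : ι) (P : α → Prop) (T : α → α → Prop)
    (hT : ∀ a b, T a b ∨ T b a) :
    pr (fun Z : ι → α => P (Z i0) ∧ ∀ l, l ≠ i0 → P (Z l) → ¬ T (Z l) (Z i0))
      ≤ 1 / (Fintype.card ι : ℝ) := by
  classical
  let E : ι → (ι → α) → Prop := fun i Z => P (Z i) ∧ ∀ l, l ≠ i → P (Z l) → ¬ T (Z l) (Z i)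
  have hsym : ∀ i, pr (E i) = pr (E i0) := by
    intro i
    have h := pr_comp_inj (α := α) (κ := ι) (ι := ι) (Equiv.swap i i0) (Equiv.swap i i0).injective
      (E i0)
    rw [← h]
    apply pr_congr
    intro Z
    show (P (Z i) ∧ ∀ l, l ≠ i → P (Z l) → ¬ T (Z l) (Z i)) ↔
      (P (Z (Equiv.swap i i0 i0)) ∧ ∀ l, l ≠ i0 → P (Z (Equiv.swap i i0 l)) →
        ¬ T (Z (Equiv.swap i i0 l)) (Z (Equiv.swap i i0 i0)))
    rw [Equiv.swap_apply_right]
    constructor
    · rintro ⟨h1, h2⟩
      refine ⟨h1, fun l hl hPl => h2 _ ?_ hPl⟩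
      intro hcon
      apply hl
      have := congrArg (Equiv.swap i i0) hcon
      simpa using this
    · rintro ⟨h1, h2⟩
      refine ⟨h1, fun l hl hPl => ?_⟩
      have h3 := h2 (Equiv.swap i i0 l) (by
        intro hcon
        apply hl
        have := congrArg (Equiv.swap i i0) hcon
        simpa using this)
      simp only [Equiv.swap_apply_self] at h3
      exact h3 hPl
  have hsum : ∑ i, pr (E i) ≤ 1 := by
    have h1 : ∑ i, pr (E i) = ((∑ i, (univ.filter (E i)).card : ℕ) : ℝ) / Fintype.card (ι → α) := by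
      rw [sum_congr rfl (fun i _ => pr_eq (E i)), ← sum_div]
      push_cast
      rfl
    rw [h1]
    apply div_le_one_of_le₀ _ (by positivity)
    have h2 : ∑ i, (univ.filter (E i)).card = (univ.biUnion fun i => univ.filter (E i)).card := by
      rw [card_biUnion]
      intro i _ j _ hij
      rw [Function.onFun, disjoint_left]
      intro Z hZi hZj
      simp only [mem_filter, mem_univ, true_and] at hZi hZj
      rcases hT (Z i) (Z j) with h | h
      · exact hZj.2 i hij hZi.1 h
      · exact hZi.2 j hij.symm hZj.1 h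
    rw [h2]
    exact_mod_cast card_le_univ _
  rw [sum_congr rfl (fun i _ => hsym i)] at hsum
  rw [sum_const, card_univ, nsmul_eq_mul] at hsum
  have hpos : (0 : ℝ) < Fintype.card ι := by exact_mod_cast Fintype.card_pos_iff.mpr ⟨i0⟩
  rw [le_div_iff₀ hpos]
  have : pr (E i0) = pr (fun Z : ι → α => P (Z i0) ∧ ∀ l, l ≠ i0 → P (Z l) → ¬ T (Z l) (Z i0)) := rfl
  rw [← this]
  linarith

/-- The same, seen from a larger sample through an injection. -/
lemma pr_extremal_le' [Nonempty α] {m : ℕ} (e : Option (Fin m) → ι) (he : Function.Injective e)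
    (P : α → Prop) (T : α → α → Prop) (hT : ∀ a b, T a b ∨ T b a) :
    pr (fun Z : ι → α => P (Z (e none)) ∧ ∀ l : Fin m, P (Z (e (some l))) →
      ¬ T (Z (e (some l))) (Z (e none))) ≤ 1 / ((m : ℝ) + 1) := by
  classical
  have h1 := pr_extremal_le (ι := Option (Fin m)) (α := α) none P T hT
  have h2 := pr_comp_inj e he (fun z : Option (Fin m) → α =>
    P (z none) ∧ ∀ l, l ≠ none → P (z l) → ¬ T (z l) (z none))
  have h3 : pr (fun Z : ι → α => P (Z (e none)) ∧ ∀ l : Fin m, P (Z (e (some l))) →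
      ¬ T (Z (e (some l))) (Z (e none)))
      = pr (fun Z : ι → α => P (Z (e none)) ∧ ∀ l : Option (Fin m), l ≠ none → P (Z (e l)) →
      ¬ T (Z (e l)) (Z (e none))) := by
    apply pr_congr
    intro Z
    constructor
    · rintro ⟨h1, h2⟩
      refine ⟨h1, ?_⟩
      rintro (_ | l) hl
      · exact absurd rfl hl
      · exact h2 l
    · rintro ⟨h1, h2⟩
      exact ⟨h1, fun l => h2 (some l) (by simp)⟩
  rw [h3]
  have h4 : ((Fintype.card (Option (Fin m)) : ℕ) : ℝ) = (m : ℝ) + 1 := by
    simp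
  rw [h4] at h1
  exact h2.le.trans h1

end functions

end Vale.Agent.P037
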