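import Mathlib

/-!
Definitions for the ordered matrix removal problem.
-/

namespace Vale.Agent.P037

/-- `(p.1, p.2)` is an ordered copy of the `k × k` pattern `H` in the `n × n` matrix `A`:
rows `p.1 0 < p.1 1 < ...` and columns `p.2 0 < p.2 1 < ...` with `A (p.1 i) (p.2 j) = H i j`. -/
def IsCopy {k n : ℕ} (H : Matrix (Fin k) (Fin k) Bool) (A : Matrix (Fin n) (Fin n) Bool)
    (p : (Fin k → Fin n) × (Fin k → Fin n)) : Prop :=
  StrictMono p.1 ∧ StrictMono p.2 ∧ ∀ i j, A (p.1 i) (p.2 j) = H i j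

/-- the number of ordered copies of `H` in `A` -/
noncomputable def copyCount {k n : ℕ} (H : Matrix (Fin k) (Fin k) Bool)
    (A : Matrix (Fin n) (Fin n) Bool) : ℕ :=
  Nat.card {p : (Fin k → Fin n) × (Fin k → Fin n) // IsCopy H A p}

/-- `A` is `H`-free: it has no ordered copy of `H` -/
def IsFree {k n : ℕ} (H : Matrix (Fin k) (Fin k) Bool) (A : Matrix (Fin n) (Fin n) Bool) : Prop :=
  copyCount H A = 0

/-- the number of entries in which `A` and `B` differ -/
noncomputable def diffCount {n : ℕ} (A B : Matrix (Fin n) (Fin n) Bool) : ℕ :=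
  Nat.card {q : Fin n × Fin n // A q.1 q.2 ≠ B q.1 q.2}

/-- the distance from `H`-freeness: the least number of entries in which `A` differs from an
`H`-free matrix of the same size, divided by `n ^ 2` -/
noncomputable def freeDist {k n : ℕ} (H : Matrix (Fin k) (Fin k) Bool)
    (A : Matrix (Fin n) (Fin n) Bool) : ℝ :=
  ((sInf {m : ℕ | ∃ B : Matrix (Fin n) (Fin n) Bool, IsFree H B ∧ diffCount A B = m} : ℕ) : ℝ) /
    (n : ℝ) ^ 2

end Vale.Agent.P037
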