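import Vale.Agent.Lib.P037.GammaCase

/-!
Sampling argument for the pattern `1 0 / 0 1`.
-/

namespace Vale.Agent.P037

open Finset

section order

variable {κ ν α β : Type*} [LinearOrder α] [LinearOrder β]

/-- copies of `1 0 / 0 1` -/
def CpD (A : α → β → Prop) (y y' : α) (x x' : β) : Prop :=
  y < y' ∧ x < x' ∧ A y x ∧ ¬ A y x' ∧ ¬ A y' x ∧ A y' x'

/-- some sampled row up to `r` contains `x` but not `c` -/
def Sep (A : α → β → Prop) (R : κ → α) (r : α) (x c : β) : Prop :=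
  ∃ k, R k ≤ r ∧ A (R k) x ∧ ¬ A (R k) c

/-- the sample up to `r` suggests that rows containing `x` contain `c` -/
def Imp (A : α → β → Prop) (R : κ → α) (r : α) (x c : β) : Prop :=
  x = c ∨ (x < c ∧ ¬ Sep A R r x c) ∨ (c < x ∧ Sep A R r c x)

lemma imp_total (A : α → β → Prop) (R : κ → α) (r : α) (x c : β) :
    Imp A R r x c ∨ Imp A R r c x := by
  rcases lt_trichotomy x c with h | h | h
  · by_cases hs : Sep A R r x c
    · exact Or.inr (Or.inr (Or.inr ⟨h, hs⟩))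
    · exact Or.inl (Or.inr (Or.inl ⟨h, hs⟩))
  · exact Or.inl (Or.inl h)
  · by_cases hs : Sep A R r c x
    · exact Or.inl (Or.inr (Or.inr ⟨h, hs⟩))
    · exact Or.inr (Or.inr (Or.inl ⟨h, hs⟩))

/-- no copy of the pattern in the sample -/
def NoCp (A : α → β → Prop) (R : κ → α) (C : ν → β) : Prop :=
  ∀ k k' j j', ¬ CpD A (R k) (R k') (C j) (C j')

/-- a column which behaves like sampled columns on both sides, as seen by pairs of sampled rows -/
def Good (A : α → β → Prop) (R : κ → α) (C : ν → β) (c : β) : Prop :=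
  (∀ k k', A (R k) c → ¬ A (R k') c → ∃ j, C j ≤ c ∧ A (R k) (C j) ∧ ¬ A (R k') (C j)) ∧
  (∀ k k', ¬ A (R k) c → A (R k') c → ∃ j, c ≤ C j ∧ ¬ A (R k) (C j) ∧ A (R k') (C j))

lemma good_sample (A : α → β → Prop) (R : κ → α) (C : ν → β) (j : ν) : Good A R C (C j) :=
  ⟨fun _ _ h1 h2 => ⟨j, le_refl _, h1, h2⟩, fun _ _ h1 h2 => ⟨j, le_refl _, h1, h2⟩⟩

lemma good_noCp {A : α → β → Prop} {R : κ → α} {C : ν → β} (h : NoCp A R C) {p q : β}
    (hp : Good A R C p) (hq : Good A R C q) (hpq : p < q) {k k' : κ}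
    (h1 : A (R k) p) (h2 : ¬ A (R k) q) (h3 : ¬ A (R k') p) (h4 : A (R k') q) :
    R k' < R k := by
  rcases lt_trichotomy (R k) (R k') with hlt | heq | hgt
  · exfalso
    obtain ⟨j, hj, hj1, hj2⟩ := hp.1 k k' h1 h3
    obtain ⟨j', hj', hj1', hj2'⟩ := hq.2 k k' h2 h4
    exact h k k' j j' ⟨hlt, (hj.trans_lt hpq).trans_le hj', hj1, hj1', hj2, hj2'⟩
  · rw [heq] at h1; exact absurd h1 h3
  · exact hgt

lemma imp_trans {A : α → β → Prop} {R : κ → α} {C : ν → β} (h : NoCp A R C) {r : α} {p q s : β}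
    (hp : Good A R C p) (hq : Good A R C q) (hs : Good A R C s)
    (h1 : Imp A R r p q) (h2 : Imp A R r q s) : Imp A R r p s := by
  classical
  rcases h1 with rfl | ⟨hpq, hn1⟩ | ⟨hpq, ⟨k, hkr, hk1, hk2⟩⟩
  · exact h2
  · rcases h2 with rfl | ⟨hqs, hn2⟩ | ⟨hqs, ⟨l, hlr, hl1, hl2⟩⟩
    · exact Or.inr (Or.inl ⟨hpq, hn1⟩)
    · -- p < q < s
      refine Or.inr (Or.inl ⟨hpq.trans hqs, ?_⟩)
      rintro ⟨y, hyr, hy1, hy2⟩
      by_cases hy : A (R y) q
      · exact hn2 ⟨y, hyr, hy, hy2⟩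
      · exact hn1 ⟨y, hyr, hy1, hy⟩
    · -- p < q, s < q, row l: s = 1, q = 0, hence p = 0
      have hlp : ¬ A (R l) p := fun hlp => hn1 ⟨l, hlr, hlp, hl2⟩
      rcases lt_trichotomy p s with hps | hps | hps
      · refine Or.inr (Or.inl ⟨hps, ?_⟩)
        rintro ⟨y, hyr, hy1, hy2⟩
        have hyq : A (R y) q := by
          by_contra hcon
          exact hn1 ⟨y, hyr, hy1, hcon⟩
        have a1 := good_noCp h hp hs hps (k := y) (k' := l) hy1 hy2 hlp hl1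
        have a2 := good_noCp h hs hq hqs (k := l) (k' := y) hl1 hl2 hy2 hyq
        exact absurd a1 (not_lt.mpr a2.le)
      · exact Or.inl hps
      · exact Or.inr (Or.inr ⟨hps, ⟨l, hlr, hl1, hlp⟩⟩)
  · -- q < p, row k: q = 1, p = 0
    rcases h2 with rfl | ⟨hqs, hn2⟩ | ⟨hqs, ⟨l, hlr, hl1, hl2⟩⟩
    · exact Or.inr (Or.inr ⟨hpq, ⟨k, hkr, hk1, hk2⟩⟩)
    · -- q < s, no row with q = 1, s = 0
      have hks : A (R k) s := by
        by_contra hcon
        exact hn2 ⟨k, hkr, hk1, hcon⟩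
      rcases lt_trichotomy p s with hps | hps | hps
      · refine Or.inr (Or.inl ⟨hps, ?_⟩)
        rintro ⟨y, hyr, hy1, hy2⟩
        have hyq : ¬ A (R y) q := fun hyq => hn2 ⟨y, hyr, hyq, hy2⟩
        have a1 := good_noCp h hq hp hpq (k := k) (k' := y) hk1 hk2 hyq hy1
        have a2 := good_noCp h hp hs hps (k := y) (k' := k) hy1 hy2 hk2 hks
        exact absurd a1 (not_lt.mpr a2.le)
      · exact Or.inl hps
      · exact Or.inr (Or.inr ⟨hps, ⟨k, hkr, hks, hk2⟩⟩)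
    · -- s < q < p; row k: q = 1, p = 0; row l: s = 1, q = 0
      refine Or.inr (Or.inr ⟨hqs.trans hpq, ?_⟩)
      by_contra hcon
      have hks : ¬ A (R k) s := fun hks => hcon ⟨k, hkr, hks, hk2⟩
      have hlp : A (R l) p := by
        by_contra hlp
        exact hcon ⟨l, hlr, hl1, hlp⟩
      have a1 := good_noCp h hq hp hpq (k := k) (k' := l) hk1 hk2 hl2 hlp
      have a2 := good_noCp h hs hq hqs (k := l) (k' := k) hl1 hl2 hks hk1
      exact absurd a1 (not_lt.mpr a2.le)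

/-- the approximation built from the sample -/
def diagB (A : α → β → Prop) (m0 m1 m2 : ℕ) (R : Fin m1 → α) (C : Fin m0 ⊕ Fin m2 → β)
    (r : α) (c : β) : Prop :=
  NoCp A R C ∧ Good A R C c ∧ ∃ i : Fin m0, A r (C (Sum.inl i)) ∧ Imp A R r (C (Sum.inl i)) c

lemma diagB_free (A : α → β → Prop) (m0 m1 m2 : ℕ) (R : Fin m1 → α) (C : Fin m0 ⊕ Fin m2 → β)
    (r r' : α) (c c' : β) : ¬ CpD (diagB A m0 m1 m2 R C) r r' c c' := by
  rintro ⟨hr, hc, h1, h2, h3, h4⟩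
  obtain ⟨hn, hgc, i, hi, himp⟩ := h1
  obtain ⟨_, hgc', i', hi', himp'⟩ := h4
  have hnot : ¬ Imp A R r c c' := by
    intro hcc'
    exact h2 ⟨hn, hgc', i, hi, imp_trans hn (good_sample A R C _) hgc hgc' himp hcc'⟩
  have hsep : Sep A R r c c' := by
    by_contra hs
    exact hnot (Or.inr (Or.inl ⟨hc, hs⟩))
  obtain ⟨k, hk, hk1, hk2⟩ := hsep
  have himp2 : Imp A R r' c' c := Or.inr (Or.inr ⟨hc, ⟨k, hk.trans hr.le, hk1, hk2⟩⟩)
  exact h3 ⟨hn, hgc, i', hi', imp_trans hn (good_sample A R C _) hgc' hgc himp' himp2⟩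

lemma diag_error_cases (A : α → β → Prop) (m0 m1 m2 : ℕ)
    (Z : Option (Fin m1) → α) (W : Option (Fin m0 ⊕ Fin m2) → β)
    (h : ¬ (A (Z none) (W none) ↔
      diagB A m0 m1 m2 (fun i => Z (some i)) (fun j => W (some j)) (Z none) (W none))) :
    (∃ i i' j j', CpD A (Z i) (Z i') (W j) (W j')) ∨
    (∃ k : Fin m1 × Fin m1, (A (Z (some k.1)) (W none) ∧ ¬ A (Z (some k.2)) (W none)) ∧
      ∀ l : Fin m2, (A (Z (some k.1)) (W (some (Sum.inr l))) ∧
        ¬ A (Z (some k.2)) (W (some (Sum.inr l)))) → ¬ (W (some (Sum.inr l)) ≤ W none)) ∨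
    (∃ k : Fin m1 × Fin m1, (¬ A (Z (some k.1)) (W none) ∧ A (Z (some k.2)) (W none)) ∧
      ∀ l : Fin m2, (¬ A (Z (some k.1)) (W (some (Sum.inr l))) ∧
        A (Z (some k.2)) (W (some (Sum.inr l)))) → ¬ (W none ≤ W (some (Sum.inr l)))) ∨
    (A (Z none) (W none) ∧ ∀ i : Fin m0, A (Z none) (W (some (Sum.inl i))) →
      ¬ Imp A (fun i => Z (some i)) (Z none) (W (some (Sum.inl i))) (W none)) ∨
    (∃ i : Fin m0, (A (Z none) (W (some (Sum.inl i))) ∧ ¬ A (Z none) (W none)) ∧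
      ∀ k : Fin m1, (A (Z (some k)) (W (some (Sum.inl i))) ∧ ¬ A (Z (some k)) (W none)) →
        ¬ (Z (some k) ≤ Z none)) := by
  classical
  set R : Fin m1 → α := fun i => Z (some i) with hR
  set C : Fin m0 ⊕ Fin m2 → β := fun j => W (some j) with hC
  set r := Z none with hr
  set c := W none with hc
  by_cases h1 : (∃ i i' j j', CpD A (Z i) (Z i') (W j) (W j'))
  · exact Or.inl h1
  right
  have hn : NoCp A R C := by
    intro k k' j j' hcp
    exact h1 ⟨some k, some k', some j, some j', hcp⟩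
  by_cases h2 : (∃ k : Fin m1 × Fin m1, (A (Z (some k.1)) c ∧ ¬ A (Z (some k.2)) c) ∧
      ∀ l : Fin m2, (A (Z (some k.1)) (W (some (Sum.inr l))) ∧
        ¬ A (Z (some k.2)) (W (some (Sum.inr l)))) → ¬ (W (some (Sum.inr l)) ≤ c))
  · exact Or.inl h2
  right
  by_cases h3 : (∃ k : Fin m1 × Fin m1, (¬ A (Z (some k.1)) c ∧ A (Z (some k.2)) c) ∧
      ∀ l : Fin m2, (¬ A (Z (some k.1)) (W (some (Sum.inr l))) ∧
        A (Z (some k.2)) (W (some (Sum.inr l)))) → ¬ (c ≤ W (some (Sum.inr l))))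
  · exact Or.inl h3
  right
  have hg : Good A R C c := by
    push Not at h2 h3
    constructor
    · intro k k' g1 g2
      obtain ⟨l, hl, hl2⟩ := h2 (k, k') ⟨g1, g2⟩
      exact ⟨Sum.inr l, hl2, hl.1, hl.2⟩
    · intro k k' g1 g2
      obtain ⟨l, hl, hl2⟩ := h3 (k, k') ⟨g1, g2⟩
      exact ⟨Sum.inr l, hl2, hl.1, hl.2⟩
  by_cases hA : A r c
  · left
    refine ⟨hA, fun i hi himp => ?_⟩
    exact h ⟨fun _ => ⟨hn, hg, i, hi, himp⟩, fun _ => hA⟩
  · right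
    have hB : diagB A m0 m1 m2 R C r c := by
      by_contra hB
      exact h ⟨fun ha => absurd ha hA, fun hb => absurd hb hB⟩
    obtain ⟨_, _, i, hi, himp⟩ := hB
    refine ⟨i, ⟨hi, hA⟩, ?_⟩
    rcases himp with heq | ⟨hlt, hns⟩ | ⟨hlt, ⟨k, hk, hk1, hk2⟩⟩
    · rw [heq] at hi; exact absurd hi hA
    · intro k hk hkr
      exact hns ⟨k, hkr, hk.1, hk.2⟩
    · exfalso
      have hne : R k ≠ r := by
        intro heq; rw [heq] at hk1; exact hA hk1
      exact h1 ⟨some k, none, none, some (Sum.inl i), lt_of_le_of_ne hk hne, hlt, hk1, hk2, hA, hi⟩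

end order

variable {α β : Type*} [Fintype α] [Fintype β] [LinearOrder α] [LinearOrder β]
  [Nonempty α] [Nonempty β]

lemma diag_error_le (A : α → β → Prop) (m0 m1 m2 : ℕ) :
    ∃ R C, pr (fun x : α × β => ¬ (A x.1 x.2 ↔ diagB A m0 m1 m2 R C x.1 x.2)) ≤
      ((m1 : ℝ) + 1) ^ 2 * ((m0 : ℝ) + m2 + 1) ^ 2 *
        pr (fun x : (α × α) × (β × β) => CpD A x.1.1 x.1.2 x.2.1 x.2.2) +
      2 * ((m1 : ℝ) ^ 2 * (1 / ((m2 : ℝ) + 1))) + 1 / ((m0 : ℝ) + 1) +
      (m0 : ℝ) * (1 / ((m1 : ℝ) + 1)) := by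
  classical
  apply exists_sample (Q := fun R C r c => ¬ (A r c ↔ diagB A m0 m1 m2 R C r c))
  refine (pr_mono (fun ω hω => diag_error_cases A m0 m1 m2 ω.1 ω.2 hω)).trans ?_
  have t1 : pr (fun ω : (Option (Fin m1) → α) × (Option (Fin m0 ⊕ Fin m2) → β) =>
      ∃ i i' j j', CpD A (ω.1 i) (ω.1 i') (ω.2 j) (ω.2 j')) ≤
      ((m1 : ℝ) + 1) ^ 2 * ((m0 : ℝ) + m2 + 1) ^ 2 *
        pr (fun x : (α × α) × (β × β) => CpD A x.1.1 x.1.2 x.2.1 x.2.2) := by
    refine (pr_copy_le (CpD A) (fun y y' x x' h => ⟨h.1.ne, h.2.1.ne⟩)).trans (le_of_eq ?_)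
    simp
  have t2 : pr (fun ω : (Option (Fin m1) → α) × (Option (Fin m0 ⊕ Fin m2) → β) =>
      (∃ k : Fin m1 × Fin m1, (A (ω.1 (some k.1)) (ω.2 none) ∧ ¬ A (ω.1 (some k.2)) (ω.2 none)) ∧
      ∀ l : Fin m2, (A (ω.1 (some k.1)) (ω.2 (some (Sum.inr l))) ∧
        ¬ A (ω.1 (some k.2)) (ω.2 (some (Sum.inr l)))) → ¬ (ω.2 (some (Sum.inr l)) ≤ ω.2 none)))
      ≤ (m1 : ℝ) ^ 2 * (1 / ((m2 : ℝ) + 1)) := by
    refine (pr_exists_le_mul _ (p := 1 / ((m2 : ℝ) + 1)) ?_).trans (le_of_eq ?_)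
    · intro k
      apply pr_prod_le _ (by positivity)
      intro Z
      exact pr_extremal_le' (fun k : Option (Fin m2) => k.map Sum.inr)
        (Option.map_injective Sum.inr_injective)
        (fun x => A (Z (some k.1)) x ∧ ¬ A (Z (some k.2)) x) (fun a b => a ≤ b) le_total
    · simp only [Fintype.card_prod, Fintype.card_fin]
      push_cast
      ring
  have t3 : pr (fun ω : (Option (Fin m1) → α) × (Option (Fin m0 ⊕ Fin m2) → β) =>
      (∃ k : Fin m1 × Fin m1, (¬ A (ω.1 (some k.1)) (ω.2 none) ∧ A (ω.1 (some k.2)) (ω.2 none)) ∧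
      ∀ l : Fin m2, (¬ A (ω.1 (some k.1)) (ω.2 (some (Sum.inr l))) ∧
        A (ω.1 (some k.2)) (ω.2 (some (Sum.inr l)))) → ¬ (ω.2 none ≤ ω.2 (some (Sum.inr l)))))
      ≤ (m1 : ℝ) ^ 2 * (1 / ((m2 : ℝ) + 1)) := by
    refine (pr_exists_le_mul _ (p := 1 / ((m2 : ℝ) + 1)) ?_).trans (le_of_eq ?_)
    · intro k
      apply pr_prod_le _ (by positivity)
      intro Z
      exact pr_extremal_le' (fun k : Option (Fin m2) => k.map Sum.inr)
        (Option.map_injective Sum.inr_injective)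
        (fun x => ¬ A (Z (some k.1)) x ∧ A (Z (some k.2)) x) (fun a b => b ≤ a)
        (fun a b => le_total b a)
    · simp only [Fintype.card_prod, Fintype.card_fin]
      push_cast
      ring
  have t4 : pr (fun ω : (Option (Fin m1) → α) × (Option (Fin m0 ⊕ Fin m2) → β) =>
      (A (ω.1 none) (ω.2 none) ∧ ∀ i : Fin m0, A (ω.1 none) (ω.2 (some (Sum.inl i))) →
      ¬ Imp A (fun i => ω.1 (some i)) (ω.1 none) (ω.2 (some (Sum.inl i))) (ω.2 none)))
      ≤ 1 / ((m0 : ℝ) + 1) := by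
    apply pr_prod_le _ (by positivity)
    intro Z
    exact pr_extremal_le' (fun k : Option (Fin m0) => k.map Sum.inl)
      (Option.map_injective Sum.inl_injective)
      (fun x => A (Z none) x) (fun a b => Imp A (fun i => Z (some i)) (Z none) a b)
      (fun a b => imp_total A _ _ a b)
  have t5 : pr (fun ω : (Option (Fin m1) → α) × (Option (Fin m0 ⊕ Fin m2) → β) =>
      (∃ i : Fin m0, (A (ω.1 none) (ω.2 (some (Sum.inl i))) ∧ ¬ A (ω.1 none) (ω.2 none)) ∧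
      ∀ k : Fin m1, (A (ω.1 (some k)) (ω.2 (some (Sum.inl i))) ∧ ¬ A (ω.1 (some k)) (ω.2 none)) →
        ¬ (ω.1 (some k) ≤ ω.1 none)))
      ≤ (m0 : ℝ) * (1 / ((m1 : ℝ) + 1)) := by
    refine (pr_exists_le_mul _ (p := 1 / ((m1 : ℝ) + 1)) ?_).trans (le_of_eq ?_)
    · intro i
      apply pr_prod_le' _ (by positivity)
      intro W
      exact pr_extremal_le' (fun k : Option (Fin m1) => k) (fun _ _ h => h)
        (fun y => A y (W (some (Sum.inl i))) ∧ ¬ A y (W none)) (fun a b => a ≤ b) le_total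
    · simp
  refine (pr_or_le _ _).trans ?_
  refine le_trans (add_le_add_right (pr_or_le _ _) _) ?_
  refine le_trans (add_le_add_right (add_le_add_right (pr_or_le _ _) _) _) ?_
  refine le_trans (add_le_add_right (add_le_add_right (add_le_add_right (pr_or_le _ _) _) _) _) ?_
  linarith

end Vale.Agent.P037
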