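import Vale.Agent.Lib.P037.DiagCase

/-!
The removal property for 2 x 2 patterns: the four basic cases.
-/

namespace Vale.Agent.P037

open Finset

/-- copies of the 2 x 2 pattern `a b / c d` -/
def CpH {α β : Type*} [LinearOrder α] [LinearOrder β] (a b c d : Bool) (A : α → β → Prop)
    (y y' : α) (x x' : β) : Prop :=
  y < y' ∧ x < x' ∧ (A y x ↔ a = true) ∧ (A y x' ↔ b = true) ∧ (A y' x ↔ c = true) ∧
    (A y' x' ↔ d = true)

/-- the polynomial removal property, in a normalised form -/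
def RP (a b c d : Bool) : Prop :=
  ∃ Cst p : ℕ, ∀ (α β : Type) [Fintype α] [Fintype β] [LinearOrder α] [LinearOrder β]
    [Nonempty α] [Nonempty β], Fintype.card α = Fintype.card β → ∀ A : α → β → Prop,
    ∀ K : ℕ, 1 ≤ K →
    ((Cst : ℝ) * (K : ℝ) ^ p) *
      pr (fun x : (α × α) × (β × β) => CpH a b c d A x.1.1 x.1.2 x.2.1 x.2.2) < 1 →
    ∃ B : α → β → Prop, (∀ y y' x x', ¬ CpH a b c d B y y' x x') ∧
      pr (fun x : α × β => ¬ (A x.1 x.2 ↔ B x.1 x.2)) * K < 1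

theorem rp_gamma : RP true true true false := by
  refine ⟨5 * 781250051 ^ 2 * 12501 ^ 2, 33, ?_⟩
  intro α β _ _ _ _ _ _ _ A K hK hδ
  have hcp : ∀ y y' x x', CpH true true true false A y y' x x' ↔ CpG A y y' x x' := by
    intro y y' x x'; simp [CpH, CpG]
  rw [pr_congr (fun x : (α × α) × (β × β) => hcp x.1.1 x.1.2 x.2.1 x.2.2)] at hδ
  set δ := pr (fun x : (α × α) × (β × β) => CpG A x.1.1 x.1.2 x.2.1 x.2.2) with hδdef
  have hδ0 : 0 ≤ δ := pr_nonneg _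
  have hK1 : (1 : ℝ) ≤ K := by exact_mod_cast hK
  have hK0 : (0 : ℝ) < K := by linarith
  set m0 : ℕ := 50 * K ^ 2 with hm0
  set m1 : ℕ := 12500 * K ^ 5 with hm1
  set m2 : ℕ := 781250000 * K ^ 11 with hm2
  have hm : m0 ≤ m1 := by
    rw [hm0, hm1]
    have : K ^ 2 ≤ K ^ 5 := Nat.pow_le_pow_right hK (by norm_num)
    nlinarith
  obtain ⟨R, C, hRC⟩ := gam_error_le A m0 m1 m2 hm (p0 := 1 / (5 * (K : ℝ))) (by positivity) (by
    rw [hm0]
    push_cast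
    rw [div_pow, one_pow, mul_pow, div_mul_eq_mul_div, le_div_iff₀ (by positivity)]
    nlinarith)
  refine ⟨gamB A m0 m1 m2 R C, ?_, ?_⟩
  · rintro y y' x x' ⟨h1, h2, h3, h4, h5, h6⟩
    simp only [iff_true] at h3 h4 h5
    have := gam_free A _ _ _ h1 h2 h3 h4 h5
    exact absurd (h6.mp this) (by simp)
  · rw [← hδdef] at hRC
    refine lt_of_le_of_lt (mul_le_mul_of_nonneg_right hRC hK0.le) ?_
    have b1 : 1 / (5 * (K : ℝ)) * K = 1 / 5 := by field_simp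
    have b2 : (m1 : ℝ) ^ 2 * (1 / ((m2 : ℝ) + 1)) * K ≤ 1 / 5 := by
      have : (m2 : ℝ) = 5 * K * (m1 : ℝ) ^ 2 := by rw [hm1, hm2]; push_cast; ring
      rw [this, mul_one_div, div_mul_eq_mul_div, div_le_div_iff₀ (by positivity) (by norm_num)]
      nlinarith
    have b3 : (m0 : ℝ) ^ 2 * (1 / ((m1 : ℝ) + 1)) * K ≤ 1 / 5 := by
      have : (m1 : ℝ) = 5 * K * (m0 : ℝ) ^ 2 := by rw [hm1, hm0]; push_cast; ring
      rw [this, mul_one_div, div_mul_eq_mul_div, div_le_div_iff₀ (by positivity) (by norm_num)]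
      nlinarith
    have b4 : ((m0 : ℝ) + m2 + 1) ^ 2 * ((m1 : ℝ) + 1) ^ 2 * δ * K ≤ 1 / 5 := by
      have c1 : (m0 : ℝ) + m2 + 1 ≤ 781250051 * (K : ℝ) ^ 11 := by
        rw [hm0, hm2]; push_cast
        have e1 : (K : ℝ) ^ 2 ≤ (K : ℝ) ^ 11 := pow_le_pow_right₀ hK1 (by norm_num)
        have e2 : (1 : ℝ) ≤ (K : ℝ) ^ 11 := one_le_pow₀ hK1
        linarith
      have c2 : (m1 : ℝ) + 1 ≤ 12501 * (K : ℝ) ^ 5 := by
        rw [hm1]; push_cast
        have e2 : (1 : ℝ) ≤ (K : ℝ) ^ 5 := one_le_pow₀ hK1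
        linarith
      calc ((m0 : ℝ) + m2 + 1) ^ 2 * ((m1 : ℝ) + 1) ^ 2 * δ * K
          ≤ (781250051 * (K : ℝ) ^ 11) ^ 2 * (12501 * (K : ℝ) ^ 5) ^ 2 * δ * K := by gcongr
        _ = (((5 * 781250051 ^ 2 * 12501 ^ 2 : ℕ) : ℝ) * (K : ℝ) ^ 33 * δ) / 5 := by push_cast; ring
        _ ≤ 1 / 5 := div_le_div_of_nonneg_right hδ.le (by norm_num)
    have : (1 / (5 * (K : ℝ)) + (m1 : ℝ) ^ 2 * (1 / ((m2 : ℝ) + 1)) + (m0 : ℝ) ^ 2 * (1 / ((m1 : ℝ) + 1)) +
      ((m0 : ℝ) + m2 + 1) ^ 2 * ((m1 : ℝ) + 1) ^ 2 * δ) * K =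
      1 / (5 * (K : ℝ)) * K + (m1 : ℝ) ^ 2 * (1 / ((m2 : ℝ) + 1)) * K +
      (m0 : ℝ) ^ 2 * (1 / ((m1 : ℝ) + 1)) * K +
      ((m0 : ℝ) + m2 + 1) ^ 2 * ((m1 : ℝ) + 1) ^ 2 * δ * K := by ring
    rw [this]
    linarith

theorem rp_diag : RP true false false true := by
  refine ⟨5 * 26 ^ 2 * 6256 ^ 2, 15, ?_⟩
  intro α β _ _ _ _ _ _ _ A K hK hδ
  have hcp : ∀ (A : α → β → Prop) y y' x x', CpH true false false true A y y' x x' ↔
      CpD A y y' x x' := by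
    intro A y y' x x'; simp [CpH, CpD]
  rw [pr_congr (fun x : (α × α) × (β × β) => hcp A x.1.1 x.1.2 x.2.1 x.2.2)] at hδ
  set δ := pr (fun x : (α × α) × (β × β) => CpD A x.1.1 x.1.2 x.2.1 x.2.2) with hδdef
  have hδ0 : 0 ≤ δ := pr_nonneg _
  have hK1 : (1 : ℝ) ≤ K := by exact_mod_cast hK
  have hK0 : (0 : ℝ) < K := by linarith
  set m0 : ℕ := 5 * K with hm0
  set m1 : ℕ := 25 * K ^ 2 with hm1
  set m2 : ℕ := 6250 * K ^ 5 with hm2
  obtain ⟨R, C, hRC⟩ := diag_error_le A m0 m1 m2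
  refine ⟨diagB A m0 m1 m2 R C, ?_, ?_⟩
  · intro y y' x x' h
    rw [hcp] at h
    exact diagB_free A m0 m1 m2 R C y y' x x' h
  · rw [← hδdef] at hRC
    refine lt_of_le_of_lt (mul_le_mul_of_nonneg_right hRC hK0.le) ?_
    have b1 : 1 / ((m0 : ℝ) + 1) * K ≤ 1 / 5 := by
      rw [hm0]; push_cast
      rw [div_mul_eq_mul_div, div_le_div_iff₀ (by positivity) (by norm_num)]
      nlinarith
    have b2 : (m1 : ℝ) ^ 2 * (1 / ((m2 : ℝ) + 1)) * K ≤ 1 / 10 := by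
      have : (m2 : ℝ) = 10 * K * (m1 : ℝ) ^ 2 := by rw [hm1, hm2]; push_cast; ring
      rw [this, mul_one_div, div_mul_eq_mul_div, div_le_div_iff₀ (by positivity) (by norm_num)]
      nlinarith
    have b3 : (m0 : ℝ) * (1 / ((m1 : ℝ) + 1)) * K ≤ 1 / 5 := by
      have : (m1 : ℝ) = 5 * K * (m0 : ℝ) := by rw [hm1, hm0]; push_cast; ring
      rw [this, mul_one_div, div_mul_eq_mul_div, div_le_div_iff₀ (by positivity) (by norm_num)]
      nlinarith
    have b4 : ((m1 : ℝ) + 1) ^ 2 * ((m0 : ℝ) + m2 + 1) ^ 2 * δ * K ≤ 1 / 5 := by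
      have c1 : (m0 : ℝ) + m2 + 1 ≤ 6256 * (K : ℝ) ^ 5 := by
        rw [hm0, hm2]; push_cast
        have e1 : (K : ℝ) ^ 1 ≤ (K : ℝ) ^ 5 := pow_le_pow_right₀ hK1 (by norm_num)
        have e2 : (1 : ℝ) ≤ (K : ℝ) ^ 5 := one_le_pow₀ hK1
        linarith
      have c2 : (m1 : ℝ) + 1 ≤ 26 * (K : ℝ) ^ 2 := by
        rw [hm1]; push_cast
        have e2 : (1 : ℝ) ≤ (K : ℝ) ^ 2 := one_le_pow₀ hK1
        linarith
      calc ((m1 : ℝ) + 1) ^ 2 * ((m0 : ℝ) + m2 + 1) ^ 2 * δ * K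
          ≤ (26 * (K : ℝ) ^ 2) ^ 2 * (6256 * (K : ℝ) ^ 5) ^ 2 * δ * K := by gcongr
        _ = (((5 * 26 ^ 2 * 6256 ^ 2 : ℕ) : ℝ) * (K : ℝ) ^ 15 * δ) / 5 := by push_cast; ring
        _ ≤ 1 / 5 := div_le_div_of_nonneg_right hδ.le (by norm_num)
    have : (((m1 : ℝ) + 1) ^ 2 * ((m0 : ℝ) + m2 + 1) ^ 2 * δ +
      2 * ((m1 : ℝ) ^ 2 * (1 / ((m2 : ℝ) + 1))) + 1 / ((m0 : ℝ) + 1) +
      (m0 : ℝ) * (1 / ((m1 : ℝ) + 1))) * K =
      ((m1 : ℝ) + 1) ^ 2 * ((m0 : ℝ) + m2 + 1) ^ 2 * δ * K +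
      2 * ((m1 : ℝ) ^ 2 * (1 / ((m2 : ℝ) + 1)) * K) + 1 / ((m0 : ℝ) + 1) * K +
      (m0 : ℝ) * (1 / ((m1 : ℝ) + 1)) * K := by ring
    rw [this]
    linarith

section jensen

variable {α γ : Type*} [Fintype α] [Fintype γ]

/-- Cauchy-Schwarz for probabilities -/
lemma pr_sq_le (Q : α → γ → Prop) :
    (pr (fun x : α × γ => Q x.1 x.2)) ^ 2 ≤
      pr (fun x : (α × α) × γ => Q x.1.1 x.2 ∧ Q x.1.2 x.2) := by
  classical
  rw [← pr_equiv (Equiv.prodComm γ α), ← pr_equiv (Equiv.prodComm γ (α × α)), pr_prod, pr_prod]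
  have h1 : ∀ g : γ, pr (fun b : α × α => Q b.1 g ∧ Q b.2 g) = (pr (fun a => Q a g)) ^ 2 := by
    intro g
    rw [pr_eq, pr_eq, div_pow, Fintype.card_prod, Nat.cast_mul, ← sq]
    congr 1
    have : (univ.filter fun b : α × α => Q b.1 g ∧ Q b.2 g) =
        (univ.filter fun a => Q a g) ×ˢ (univ.filter fun a => Q a g) := by
      ext ⟨a, b⟩; simp
    rw [this, card_product, sq]
    push_cast
    ring
  have h2 : ∀ g : γ, pr (fun b : α × α => (fun x : (α × α) × γ => Q x.1.1 x.2 ∧ Q x.1.2 x.2)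
      ((Equiv.prodComm γ (α × α)) (g, b))) = (pr (fun a => Q a g)) ^ 2 := h1
  have h3 : ∀ g : γ, pr (fun b : α => (fun x : α × γ => Q x.1 x.2)
      ((Equiv.prodComm γ α) (g, b))) = pr (fun a => Q a g) := fun g => rfl
  simp only [h2, h3]
  rcases Nat.eq_zero_or_pos (Fintype.card γ) with h0 | h0
  · simp [h0]
  · have hpos : (0 : ℝ) < Fintype.card γ := by exact_mod_cast h0
    rw [div_pow, div_le_div_iff₀ (by positivity) hpos]
    have := sq_sum_le_card_mul_sum_sq (s := (univ : Finset γ)) (f := fun g => pr (fun a => Q a g))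
    rw [card_univ] at this
    nlinarith

lemma pr_eq_diag [Nonempty α] : pr (fun x : α × α => x.1 = x.2) = 1 / (Fintype.card α : ℝ) := by
  classical
  rw [pr_eq]
  have : (univ.filter fun x : α × α => x.1 = x.2).card = Fintype.card α := by
    rw [← card_univ]
    symm
    apply card_bij (fun a _ => (a, a))
    · intro a _; simp
    · intro a _ b _ hab; exact (Prod.mk.inj hab).1
    · rintro ⟨a, b⟩ h
      simp only [mem_filter, mem_univ, true_and] at h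
      exact ⟨a, mem_univ _, by rw [h]⟩
  rw [this, Fintype.card_prod]
  have hpos : (0 : ℝ) < Fintype.card α := by exact_mod_cast Fintype.card_pos
  push_cast
  field_simp

end jensen

/-- a nonzero probability is at least the reciprocal of the size of the space -/
lemma pr_pos_ge {Ω : Type*} [Fintype Ω] {Q : Ω → Prop} {ω : Ω} (h : Q ω) :
    1 / (Fintype.card Ω : ℝ) ≤ pr Q := by
  classical
  rw [pr_eq]
  gcongr
  have : 0 < (univ.filter Q).card := card_pos.mpr ⟨ω, by simpa using h⟩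
  exact_mod_cast this

theorem rp_ones : RP true true true true := by
  refine ⟨8 ^ 4, 16, ?_⟩
  intro α β _ _ _ _ _ _ hcard A K hK hδ
  classical
  set δ := pr (fun x : (α × α) × (β × β) => CpH true true true true A x.1.1 x.1.2 x.2.1 x.2.2)
    with hδdef
  have hδ0 : 0 ≤ δ := pr_nonneg _
  have hK1 : (1 : ℝ) ≤ K := by exact_mod_cast hK
  have hK0 : (0 : ℝ) < K := by linarith
  by_cases hfree : ∀ y y' x x', ¬ CpH true true true true A y y' x x'
  · refine ⟨A, hfree, ?_⟩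
    rw [pr_eq_zero (by simp)]
    simp
  push Not at hfree
  obtain ⟨y, y', x, x', hcp⟩ := hfree
  refine ⟨fun _ _ => False, ?_, ?_⟩
  · rintro y y' x x' ⟨_, _, h, _⟩
    simp at h
  set n : ℝ := (Fintype.card α : ℝ) with hn
  have hnpos : 0 < n := by rw [hn]; exact_mod_cast Fintype.card_pos
  have hβ : (Fintype.card β : ℝ) = n := by rw [hn, hcard]
  -- n is large
  have hlow : 1 / n ^ 4 ≤ δ := by
    have := pr_pos_ge (Q := fun x : (α × α) × (β × β) => CpH true true true true A x.1.1 x.1.2 x.2.1 x.2.2)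
      (ω := ((y, y'), (x, x'))) hcp
    refine le_trans (le_of_eq ?_) this
    simp only [Fintype.card_prod]
    push_cast
    rw [hβ]
    ring
  have hPn : ((8 ^ 4 : ℕ) : ℝ) * (K : ℝ) ^ 16 < n ^ 4 := by
    have h1 : ((8 ^ 4 : ℕ) : ℝ) * (K : ℝ) ^ 16 * (1 / n ^ 4) < 1 :=
      lt_of_le_of_lt (by gcongr) hδ
    rw [mul_one_div, div_lt_one (by positivity)] at h1
    exact h1
  have hnlarge : 8 * (K : ℝ) ^ 4 < n := by
    have h1 : (8 * (K : ℝ) ^ 4) ^ 4 < n ^ 4 := by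
      calc (8 * (K : ℝ) ^ 4) ^ 4 = ((8 ^ 4 : ℕ) : ℝ) * (K : ℝ) ^ 16 := by push_cast; ring
        _ < n ^ 4 := hPn
    exact lt_of_pow_lt_pow_left₀ 4 hnpos.le h1
  set u := pr (fun x : α × β => A x.1 x.2) with hu
  have hu0 : 0 ≤ u := pr_nonneg _
  have hgoal : pr (fun x : α × β => ¬ (A x.1 x.2 ↔ False)) = u := by
    apply pr_congr; intro x; simp
  show pr (fun x : α × β => ¬ (A x.1 x.2 ↔ False)) * K < 1
  rw [hgoal]
  by_contra hcon
  push Not at hcon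
  -- u ^ 4 ≤ ...
  have h1 := pr_sq_le (α := α) (γ := β) A
  rw [← hu] at h1
  set v := pr (fun x : (α × α) × β => A x.1.1 x.2 ∧ A x.1.2 x.2) with hv
  have h2 := pr_sq_le (α := β) (γ := α × α) (fun x y => A y.1 x ∧ A y.2 x)
  have h3 : pr (fun x : β × (α × α) => A x.2.1 x.1 ∧ A x.2.2 x.1) = v := by
    rw [hv, ← pr_equiv (Equiv.prodComm β (α × α))]
    rfl
  rw [h3] at h2
  have hv0 : 0 ≤ v := pr_nonneg _
  have h4 : u ^ 4 ≤ pr (fun x : (β × β) × (α × α) =>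
      (A x.2.1 x.1.1 ∧ A x.2.2 x.1.1) ∧ (A x.2.1 x.1.2 ∧ A x.2.2 x.1.2)) := by
    calc u ^ 4 = (u ^ 2) ^ 2 := by ring
      _ ≤ v ^ 2 := by gcongr
      _ ≤ _ := h2
  -- split according to the order of the coordinates
  have h5 : pr (fun x : (β × β) × (α × α) =>
      (A x.2.1 x.1.1 ∧ A x.2.2 x.1.1) ∧ (A x.2.1 x.1.2 ∧ A x.2.2 x.1.2)) ≤
      1 / n + 1 / n + 4 * δ := by
    let Q : (β × β) × (α × α) → Prop := fun x =>
      CpH true true true true A x.2.1 x.2.2 x.1.1 x.1.2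
    have hQ : pr Q = δ := by
      rw [hδdef, ← pr_equiv (Equiv.prodComm (β × β) (α × α))]
      rfl
    have e1 : pr (fun x : (β × β) × (α × α) => Q ((x.1.2, x.1.1), x.2)) = δ := by
      rw [← hQ, ← pr_equiv (Equiv.prodCongr (Equiv.prodComm β β) (Equiv.refl (α × α))) Q]
      rfl
    have e2 : pr (fun x : (β × β) × (α × α) => Q (x.1, (x.2.2, x.2.1))) = δ := by
      rw [← hQ, ← pr_equiv (Equiv.prodCongr (Equiv.refl (β × β)) (Equiv.prodComm α α)) Q]
      rfl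
    have e3 : pr (fun x : (β × β) × (α × α) => Q ((x.1.2, x.1.1), (x.2.2, x.2.1))) = δ := by
      rw [← hQ, ← pr_equiv (Equiv.prodCongr (Equiv.prodComm β β) (Equiv.prodComm α α)) Q]
      rfl
    have e4 : pr (fun x : (β × β) × (α × α) => x.1.1 = x.1.2) = 1 / n := by
      rw [pr_fst (α := β × β) (β := α × α) (fun x => x.1 = x.2), pr_eq_diag, hβ]
    have e5 : pr (fun x : (β × β) × (α × α) => x.2.1 = x.2.2) = 1 / n := by
      rw [pr_snd (α := β × β) (β := α × α) (fun x => x.1 = x.2), pr_eq_diag]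
    have hsub : ∀ x : (β × β) × (α × α),
        (A x.2.1 x.1.1 ∧ A x.2.2 x.1.1) ∧ (A x.2.1 x.1.2 ∧ A x.2.2 x.1.2) →
        (x.1.1 = x.1.2) ∨ (x.2.1 = x.2.2) ∨ Q x ∨ Q ((x.1.2, x.1.1), x.2) ∨
          Q (x.1, (x.2.2, x.2.1)) ∨ Q ((x.1.2, x.1.1), (x.2.2, x.2.1)) := by
      rintro ⟨⟨x1, x2⟩, ⟨y1, y2⟩⟩ ⟨⟨a1, a2⟩, ⟨a3, a4⟩⟩
      simp only at a1 a2 a3 a4
      rcases lt_trichotomy x1 x2 with hx | hx | hx
      · rcases lt_trichotomy y1 y2 with hy | hy | hy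
        · right; right; left
          exact ⟨hy, hx, by simpa using a1, by simpa using a3, by simpa using a2, by simpa using a4⟩
        · right; left; exact hy
        · right; right; right; right; left
          exact ⟨hy, hx, by simpa using a2, by simpa using a4, by simpa using a1, by simpa using a3⟩
      · left; exact hx
      · rcases lt_trichotomy y1 y2 with hy | hy | hy
        · right; right; right; left
          exact ⟨hy, hx, by simpa using a3, by simpa using a1, by simpa using a4, by simpa using a2⟩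
        · right; left; exact hy
        · right; right; right; right; right
          exact ⟨hy, hx, by simpa using a4, by simpa using a2, by simpa using a3, by simpa using a1⟩
    refine (pr_mono hsub).trans ?_
    refine (pr_or_le _ _).trans ?_
    refine (add_le_add_right (pr_or_le _ _) _).trans ?_
    refine (add_le_add_right (add_le_add_right (pr_or_le _ _) _) _).trans ?_
    refine (add_le_add_right (add_le_add_right (add_le_add_right (pr_or_le _ _) _) _) _).trans ?_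
    refine (add_le_add_right (add_le_add_right (add_le_add_right (add_le_add_right (pr_or_le _ _) _) _) _) _).trans ?_
    rw [e1, e2, e3, e4, e5]
    have : pr Q = δ := hQ
    show 1 / n + (1 / n + (pr Q + (δ + (δ + δ)))) ≤ _
    rw [this]
    linarith
  have h6 : u ^ 4 ≤ 1 / n + 1 / n + 4 * δ := h4.trans h5
  -- numerics
  have h7 : (1 : ℝ) ≤ u ^ 4 * (K : ℝ) ^ 4 := by
    have : (1 : ℝ) ≤ (u * K) ^ 4 := one_le_pow₀ hcon
    rwa [mul_pow] at this
  have hK4 : (0 : ℝ) < (K : ℝ) ^ 4 := by positivity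
  have h8 : 1 / n * (K : ℝ) ^ 4 < 1 / 8 := by
    rw [div_mul_eq_mul_div, one_mul, div_lt_div_iff₀ hnpos (by norm_num)]
    linarith
  have h9 : δ * (K : ℝ) ^ 4 < 1 / 8 := by
    have a1 : (K : ℝ) ^ 4 ≤ (K : ℝ) ^ 16 := pow_le_pow_right₀ hK1 (by norm_num)
    have a2 : δ * (K : ℝ) ^ 4 ≤ δ * (K : ℝ) ^ 16 := by gcongr
    have a3 : ((8 ^ 4 : ℕ) : ℝ) = 4096 := by norm_num
    rw [a3] at hδ
    nlinarith
  have h10 : u ^ 4 * (K : ℝ) ^ 4 ≤ (1 / n + 1 / n + 4 * δ) * (K : ℝ) ^ 4 := by gcongr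
  nlinarith

end Vale.Agent.P037
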