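import Vale.Agent.Lib.P037.Conn

/-!
Sampling argument for the pattern `1 1 / 1 0`.
-/

namespace Vale.Agent.P037

open Finset Relation

section

variable {ι κ α β : Type*} [Fintype ι] [Fintype κ] [Fintype α] [Fintype β]

/-- split off the distinguished sample points -/
def splitEquiv (ι κ α β : Type*) :
    (((ι → α) × (κ → β)) × (α × β)) ≃ ((Option ι → α) × (Option κ → β)) where
  toFun ω := (fun o => o.elim ω.2.1 ω.1.1, fun o => o.elim ω.2.2 ω.1.2)
  invFun x := ((fun i => x.1 (some i), fun j => x.2 (some j)), (x.1 none, x.2 none))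
  left_inv ω := rfl
  right_inv x := by
    ext o
    · cases o <;> rfl
    · cases o <;> rfl

/-- From an error bound for the whole sample (including the point `(r, c)`) to the existence of
one good sample. -/
lemma exists_sample [Nonempty α] [Nonempty β] (Q : (ι → α) → (κ → β) → α → β → Prop) {p : ℝ}
    [DecidableEq ι] [DecidableEq κ]
    (h : pr (fun x : (Option ι → α) × (Option κ → β) =>
      Q (fun i => x.1 (some i)) (fun j => x.2 (some j)) (x.1 none) (x.2 none)) ≤ p) :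
    ∃ R C, pr (fun x : α × β => Q R C x.1 x.2) ≤ p := by
  classical
  have h1 := pr_equiv (splitEquiv ι κ α β) (fun x : (Option ι → α) × (Option κ → β) =>
      Q (fun i => x.1 (some i)) (fun j => x.2 (some j)) (x.1 none) (x.2 none))
  obtain ⟨⟨R, C⟩, hRC⟩ := exists_pr_le (α := (ι → α) × (κ → β)) (β := α × β)
    (fun ω => Q ω.1.1 ω.1.2 ω.2.1 ω.2.2)
  refine ⟨R, C, hRC.trans ?_⟩
  refine le_trans (le_of_eq ?_) h
  rw [← h1]
  rfl

end

variable {α β : Type*} [Fintype α] [Fintype β] [LinearOrder α] [LinearOrder β]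
  [Nonempty α] [Nonempty β]

/-- copies of `1 1 / 1 0` -/
def CpG (A : α → β → Prop) (y y' : α) (x x' : β) : Prop :=
  y < y' ∧ x < x' ∧ A y x ∧ A y x' ∧ A y' x ∧ ¬ A y' x'

/-- the approximation built from the sample -/
def gamB (A : α → β → Prop) (m0 m1 m2 : ℕ) (R : Fin m0 ⊕ Fin m2 → α) (C : Fin m1 → β) :
    α → β → Prop :=
  Gam A (univ.image fun i : Fin m0 => R (Sum.inl i)) (univ.image R) (univ.image C)

lemma gam_error_cases (A : α → β → Prop) (m0 m1 m2 : ℕ) (hm : m0 ≤ m1)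
    (Z : Option (Fin m0 ⊕ Fin m2) → α) (W : Option (Fin m1) → β)
    (h : ¬ (A (Z none) (W none) ↔
      gamB A m0 m1 m2 (fun i => Z (some i)) (fun j => W (some j)) (Z none) (W none))) :
    (Unc A (fun k : Option (Fin m0) => Z (k.map Sum.inl))
      (fun k : Option (Fin m0) => W (k.map (Fin.castLE hm))) none none) ∨
    (∃ j : Fin m1 × Fin m1, (A (Z none) (W (some j.1)) ∧ A (Z none) (W (some j.2))) ∧
      ∀ k : Fin m2, (A (Z (some (Sum.inr k))) (W (some j.1)) ∧
        A (Z (some (Sum.inr k))) (W (some j.2))) → ¬ (Z (some (Sum.inr k)) ≤ Z none)) ∨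
    (∃ i : Fin m0 × Fin m0, (A (Z (some (Sum.inl i.1))) (W none) ∧
        A (Z (some (Sum.inl i.2))) (W none)) ∧
      ∀ k : Fin m1, (A (Z (some (Sum.inl i.1))) (W (some k)) ∧
        A (Z (some (Sum.inl i.2))) (W (some k))) → ¬ (W (some k) ≤ W none)) ∨
    (∃ i i' j j', CpG A (Z i) (Z i') (W j) (W j')) := by
  classical
  set R : Fin m0 ⊕ Fin m2 → α := fun i => Z (some i) with hR
  set C : Fin m1 → β := fun j => W (some j) with hC
  set r := Z none with hr
  set c := W none with hc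
  by_cases hA : A r c
  · -- a one which is missed
    by_cases h1 : Unc A (fun k : Option (Fin m0) => Z (k.map Sum.inl))
      (fun k : Option (Fin m0) => W (k.map (Fin.castLE hm))) none none
    · exact Or.inl h1
    right
    by_cases h2 : (∃ j : Fin m1 × Fin m1, (A r (W (some j.1)) ∧ A r (W (some j.2))) ∧
      ∀ k : Fin m2, (A (Z (some (Sum.inr k))) (W (some j.1)) ∧
        A (Z (some (Sum.inr k))) (W (some j.2))) → ¬ (Z (some (Sum.inr k)) ≤ r))
    · exact Or.inl h2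
    right
    by_cases h3 : (∃ i : Fin m0 × Fin m0, (A (Z (some (Sum.inl i.1))) c ∧
        A (Z (some (Sum.inl i.2))) c) ∧
      ∀ k : Fin m1, (A (Z (some (Sum.inl i.1))) (W (some k)) ∧
        A (Z (some (Sum.inl i.2))) (W (some k))) → ¬ (W (some k) ≤ c))
    · exact Or.inl h3
    exfalso
    apply h
    refine ⟨fun _ => ?_, fun _ => hA⟩
    push Not at h2 h3
    -- the row and the column are covered
    have h1' : ∃ i : Fin m0, ∃ j : Fin m0, Z (some (Sum.inl i)) ≤ r ∧ W (some (Fin.castLE hm j)) ≤ c ∧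
        A (Z (some (Sum.inl i))) (W (some (Fin.castLE hm j))) ∧ A (Z (some (Sum.inl i))) c ∧
        A r (W (some (Fin.castLE hm j))) := by
      by_contra hcon
      push Not at hcon
      apply h1
      refine ⟨hA, ?_⟩
      rintro (_ | i) hi (_ | j) hj g1 g2 g3 g4 g5
      · exact hi rfl
      · exact hi rfl
      · exact hj rfl
      · exact hcon i j g1 g2 g3 g4 g5
    obtain ⟨i, j, g1, g2, g3, g4, g5⟩ := h1'
    set j' : Fin m1 := Fin.castLE hm j with hj'
    -- labels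
    have hneR : (univ.filter fun k : Fin m1 => A r (C k)).Nonempty := ⟨j', by simpa using g5⟩
    obtain ⟨k1, hk1, hk1min⟩ := exists_min_image _ C hneR
    have hneC : (univ.filter fun k : Fin m0 => A (R (Sum.inl k)) c).Nonempty := ⟨i, by simpa using g4⟩
    obtain ⟨k2, hk2, hk2min⟩ := exists_min_image _ (fun k => R (Sum.inl k)) hneC
    simp only [mem_filter, mem_univ, true_and] at hk1 hk1min hk2 hk2min
    have hxle : C k1 ≤ C j' := hk1min j' g5
    have hyle : R (Sum.inl k2) ≤ R (Sum.inl i) := hk2min i g4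
    refine ⟨C k1, R (Sum.inl k2), ⟨mem_image_of_mem _ (mem_univ _), hk1, ?_⟩,
      ⟨mem_image_of_mem (fun k => R (Sum.inl k)) (mem_univ _), hk2, ?_⟩, hxle.trans g2, hyle.trans g1, ?_⟩
    · intro x' hx' hAx'
      obtain ⟨k, _, rfl⟩ := mem_image.mp hx'
      exact hk1min k hAx'
    · intro y' hy' hAy'
      obtain ⟨k, _, rfl⟩ := mem_image.mp hy'
      exact hk2min k hAy'
    · -- connectivity
      obtain ⟨k3, hk3, hk3r⟩ := h2 (k1, j') ⟨hk1, g5⟩
      obtain ⟨k4, hk4, hk4c⟩ := h3 (i, k2) ⟨g4, hk2⟩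
      have memR : ∀ k, R k ∈ univ.image R := fun k => mem_image_of_mem _ (mem_univ _)
      have memC : ∀ k, C k ∈ univ.image C := fun k => mem_image_of_mem _ (mem_univ _)
      have e1 : Link A (univ.image R) (univ.image C) r c (Sum.inl (R (Sum.inr k3))) (Sum.inr (C k1)) :=
        ⟨_, _, rfl, rfl, memR _, memC _, hk3r, hxle.trans g2, hk3.1⟩
      have e2 : Link A (univ.image R) (univ.image C) r c (Sum.inl (R (Sum.inr k3))) (Sum.inr (C j')) :=
        ⟨_, _, rfl, rfl, memR _, memC _, hk3r, g2, hk3.2⟩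
      have e3 : Link A (univ.image R) (univ.image C) r c (Sum.inl (R (Sum.inl i))) (Sum.inr (C j')) :=
        ⟨_, _, rfl, rfl, memR _, memC _, g1, g2, g3⟩
      have e4 : Link A (univ.image R) (univ.image C) r c (Sum.inl (R (Sum.inl i))) (Sum.inr (C k4)) :=
        ⟨_, _, rfl, rfl, memR _, memC _, g1, hk4c, hk4.1⟩
      have e5 : Link A (univ.image R) (univ.image C) r c (Sum.inl (R (Sum.inl k2))) (Sum.inr (C k4)) :=
        ⟨_, _, rfl, rfl, memR _, memC _, hyle.trans g1, hk4c, hk4.2⟩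
      exact EqvGen.trans _ _ _ (EqvGen.symm _ _ (EqvGen.rel _ _ e1))
        (EqvGen.trans _ _ _ (EqvGen.rel _ _ e2)
        (EqvGen.trans _ _ _ (EqvGen.symm _ _ (EqvGen.rel _ _ e3))
        (EqvGen.trans _ _ _ (EqvGen.rel _ _ e4) (EqvGen.symm _ _ (EqvGen.rel _ _ e5)))))
  · -- a wrong one
    have hg : gamB A m0 m1 m2 R C r c := by
      by_contra hg
      exact h ⟨fun ha => absurd ha hA, fun hb => absurd hb hg⟩
    right; right; right
    obtain ⟨y, hy, y', hy', x, hx, x', hx', g1, g2, g3, g4, g5, g6⟩ :=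
      gam_wrong A _ (univ.image R) (univ.image C) (by
        intro y hy
        obtain ⟨k, _, rfl⟩ := mem_image.mp hy
        exact mem_image_of_mem _ (mem_univ _)) r c hg hA
    have hrow : ∀ y ∈ insert r (univ.image R), ∃ i, Z i = y := by
      intro y hy
      rcases mem_insert.mp hy with rfl | hy
      · exact ⟨none, rfl⟩
      · obtain ⟨k, _, rfl⟩ := mem_image.mp hy
        exact ⟨some k, rfl⟩
    have hcol : ∀ x ∈ insert c (univ.image C), ∃ j, W j = x := by
      intro x hx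
      rcases mem_insert.mp hx with rfl | hx
      · exact ⟨none, rfl⟩
      · obtain ⟨k, _, rfl⟩ := mem_image.mp hx
        exact ⟨some k, rfl⟩
    obtain ⟨i, rfl⟩ := hrow y hy
    obtain ⟨i', rfl⟩ := hrow y' hy'
    obtain ⟨j, rfl⟩ := hcol x hx
    obtain ⟨j', rfl⟩ := hcol x' hx'
    exact ⟨i, i', j, j', g1, g2, g3, g4, g5, g6⟩

lemma gam_error_le (A : α → β → Prop) (m0 m1 m2 : ℕ) (hm : m0 ≤ m1) {p0 : ℝ} (hp0 : 0 ≤ p0)
    (hp : 2 ≤ p0 ^ 2 * ((m0 : ℝ) + 1)) :
    ∃ R C, pr (fun x : α × β => ¬ (A x.1 x.2 ↔ gamB A m0 m1 m2 R C x.1 x.2)) ≤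
      p0 + (m1 : ℝ) ^ 2 * (1 / ((m2 : ℝ) + 1)) + (m0 : ℝ) ^ 2 * (1 / ((m1 : ℝ) + 1)) +
      ((m0 : ℝ) + m2 + 1) ^ 2 * ((m1 : ℝ) + 1) ^ 2 *
        pr (fun x : (α × α) × (β × β) => CpG A x.1.1 x.1.2 x.2.1 x.2.2) := by
  classical
  apply exists_sample (Q := fun R C r c => ¬ (A r c ↔ gamB A m0 m1 m2 R C r c))
  refine (pr_mono (fun ω hω => gam_error_cases A m0 m1 m2 hm ω.1 ω.2 hω)).trans ?_
  refine (pr_or_le _ _).trans ?_
  have t1 : pr (fun ω : (Option (Fin m0 ⊕ Fin m2) → α) × (Option (Fin m1) → β) =>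
      Unc A (fun k : Option (Fin m0) => ω.1 (k.map Sum.inl))
      (fun k : Option (Fin m0) => ω.2 (k.map (Fin.castLE hm))) none none) ≤ p0 := by
    have h1 := pr_comp_inj₂ (α := α) (β := β) (ι := Option (Fin m0 ⊕ Fin m2)) (κ := Option (Fin m0))
      (ι' := Option (Fin m1)) (κ' := Option (Fin m0))
      (fun k => k.map Sum.inl) (Option.map_injective Sum.inl_injective)
      (fun k => k.map (Fin.castLE hm)) (Option.map_injective (Fin.castLE_injective hm))
      (fun z w => Unc A z w none none)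
    rw [h1]
    have h2 := pr_unc_le (ι := Option (Fin m0)) (κ := Option (Fin m0)) A rfl none none
    have h3 : ((Fintype.card (Option (Fin m0)) : ℕ) : ℝ) = (m0 : ℝ) + 1 := by simp
    rw [h3] at h2
    by_contra hcon
    push Not at hcon
    have h4 : p0 ^ 2 * ((m0 : ℝ) + 1) <
      (pr fun ω : (Option (Fin m0) → α) × (Option (Fin m0) → β) => Unc A ω.1 ω.2 none none) ^ 2 *
        ((m0 : ℝ) + 1) := by
      gcongr
    linarith
  have t2 : pr (fun ω : (Option (Fin m0 ⊕ Fin m2) → α) × (Option (Fin m1) → β) =>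
      ∃ j : Fin m1 × Fin m1, (A (ω.1 none) (ω.2 (some j.1)) ∧ A (ω.1 none) (ω.2 (some j.2))) ∧
      ∀ k : Fin m2, (A (ω.1 (some (Sum.inr k))) (ω.2 (some j.1)) ∧
        A (ω.1 (some (Sum.inr k))) (ω.2 (some j.2))) → ¬ (ω.1 (some (Sum.inr k)) ≤ ω.1 none))
      ≤ (m1 : ℝ) ^ 2 * (1 / ((m2 : ℝ) + 1)) := by
    refine (pr_exists_le_mul _ (p := 1 / ((m2 : ℝ) + 1)) ?_).trans (le_of_eq ?_)
    · intro j
      apply pr_prod_le' _ (by positivity)
      intro W
      exact pr_extremal_le' (fun k : Option (Fin m2) => k.map Sum.inr)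
        (Option.map_injective Sum.inr_injective)
        (fun y => A y (W (some j.1)) ∧ A y (W (some j.2))) (fun a b => a ≤ b) le_total
    · simp only [Fintype.card_prod, Fintype.card_fin]
      push_cast
      ring
  have t3 : pr (fun ω : (Option (Fin m0 ⊕ Fin m2) → α) × (Option (Fin m1) → β) =>
      ∃ i : Fin m0 × Fin m0, (A (ω.1 (some (Sum.inl i.1))) (ω.2 none) ∧
        A (ω.1 (some (Sum.inl i.2))) (ω.2 none)) ∧
      ∀ k : Fin m1, (A (ω.1 (some (Sum.inl i.1))) (ω.2 (some k)) ∧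
        A (ω.1 (some (Sum.inl i.2))) (ω.2 (some k))) → ¬ (ω.2 (some k) ≤ ω.2 none))
      ≤ (m0 : ℝ) ^ 2 * (1 / ((m1 : ℝ) + 1)) := by
    refine (pr_exists_le_mul _ (p := 1 / ((m1 : ℝ) + 1)) ?_).trans (le_of_eq ?_)
    · intro i
      apply pr_prod_le _ (by positivity)
      intro Z
      exact pr_extremal_le' (fun k : Option (Fin m1) => k)
        (fun _ _ h => h)
        (fun x => A (Z (some (Sum.inl i.1))) x ∧ A (Z (some (Sum.inl i.2))) x)
        (fun a b => a ≤ b) le_total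
    · simp only [Fintype.card_prod, Fintype.card_fin]
      push_cast
      ring
  have t4 : pr (fun ω : (Option (Fin m0 ⊕ Fin m2) → α) × (Option (Fin m1) → β) =>
      ∃ i i' j j', CpG A (ω.1 i) (ω.1 i') (ω.2 j) (ω.2 j')) ≤
      ((m0 : ℝ) + m2 + 1) ^ 2 * ((m1 : ℝ) + 1) ^ 2 *
        pr (fun x : (α × α) × (β × β) => CpG A x.1.1 x.1.2 x.2.1 x.2.2) := by
    refine (pr_copy_le (CpG A) (fun y y' x x' h => ⟨h.1.ne, h.2.1.ne⟩)).trans (le_of_eq ?_)
    simp
  have u1 := pr_or_le (Ω := (Option (Fin m0 ⊕ Fin m2) → α) × (Option (Fin m1) → β))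
    (fun ω => ∃ i : Fin m0 × Fin m0, (A (ω.1 (some (Sum.inl i.1))) (ω.2 none) ∧
        A (ω.1 (some (Sum.inl i.2))) (ω.2 none)) ∧
      ∀ k : Fin m1, (A (ω.1 (some (Sum.inl i.1))) (ω.2 (some k)) ∧
        A (ω.1 (some (Sum.inl i.2))) (ω.2 (some k))) → ¬ (ω.2 (some k) ≤ ω.2 none))
    (fun ω => ∃ i i' j j', CpG A (ω.1 i) (ω.1 i') (ω.2 j) (ω.2 j'))
  have u2 := pr_or_le (Ω := (Option (Fin m0 ⊕ Fin m2) → α) × (Option (Fin m1) → β))
    (fun ω => ∃ j : Fin m1 × Fin m1, (A (ω.1 none) (ω.2 (some j.1)) ∧ A (ω.1 none) (ω.2 (some j.2))) ∧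
      ∀ k : Fin m2, (A (ω.1 (some (Sum.inr k))) (ω.2 (some j.1)) ∧
        A (ω.1 (some (Sum.inr k))) (ω.2 (some j.2))) → ¬ (ω.1 (some (Sum.inr k)) ≤ ω.1 none))
    (fun ω => (∃ i : Fin m0 × Fin m0, (A (ω.1 (some (Sum.inl i.1))) (ω.2 none) ∧
        A (ω.1 (some (Sum.inl i.2))) (ω.2 none)) ∧
      ∀ k : Fin m1, (A (ω.1 (some (Sum.inl i.1))) (ω.2 (some k)) ∧
        A (ω.1 (some (Sum.inl i.2))) (ω.2 (some k))) → ¬ (ω.2 (some k) ≤ ω.2 none)) ∨
      (∃ i i' j j', CpG A (ω.1 i) (ω.1 i') (ω.2 j) (ω.2 j')))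
  linarith

end Vale.Agent.P037
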