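import Vale.Agent.Lib.P037.Easy

/-!
The pattern `1 1 / 0 0`, and the symmetries.
-/

namespace Vale.Agent.P037

open Finset

section

variable {α β : Type*} [Fintype α] [Fintype β] [LinearOrder α] [LinearOrder β]
  [Nonempty α] [Nonempty β]

/-- the column-monotone approximation -/
def monB (A : α → β → Prop) (m : ℕ) (R : Fin m → α) (r : α) (c : β) : Prop :=
  ∃ k, R k ≤ r ∧ A (R k) c

lemma mon_error_le (A : α → β → Prop) (m : ℕ) :
    ∃ R, pr (fun x : α × β => ¬ (A x.1 x.2 ↔ monB A m R x.1 x.2)) ≤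
      1 / ((m : ℝ) + 1) +
      (m : ℝ) * pr (fun x : (α × α) × β => x.1.1 < x.1.2 ∧ A x.1.1 x.2 ∧ ¬ A x.1.2 x.2) := by
  classical
  suffices h : ∃ (R : Fin m → α) (C : Fin 0 → β),
      pr (fun x : α × β => ¬ (A x.1 x.2 ↔ monB A m R x.1 x.2)) ≤
      1 / ((m : ℝ) + 1) +
      (m : ℝ) * pr (fun x : (α × α) × β => x.1.1 < x.1.2 ∧ A x.1.1 x.2 ∧ ¬ A x.1.2 x.2) by
    obtain ⟨R, C, h⟩ := h
    exact ⟨R, h⟩
  apply exists_sample (Q := fun R C r c => ¬ (A r c ↔ monB A m R r c))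
  have hcases : ∀ ω : (Option (Fin m) → α) × (Option (Fin 0) → β),
      ¬ (A (ω.1 none) (ω.2 none) ↔ monB A m (fun i => ω.1 (some i)) (ω.1 none) (ω.2 none)) →
      (A (ω.1 none) (ω.2 none) ∧ ∀ k : Fin m, A (ω.1 (some k)) (ω.2 none) →
        ¬ (ω.1 (some k) ≤ ω.1 none)) ∨
      (∃ k : Fin m, ω.1 (some k) < ω.1 none ∧ A (ω.1 (some k)) (ω.2 none) ∧
        ¬ A (ω.1 none) (ω.2 none)) := by
    intro ω h
    by_cases hA : A (ω.1 none) (ω.2 none)
    · left
      refine ⟨hA, fun k hk hle => h ⟨fun _ => ⟨k, hle, hk⟩, fun _ => hA⟩⟩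
    · right
      have hB : monB A m (fun i => ω.1 (some i)) (ω.1 none) (ω.2 none) := by
        by_contra hB
        exact h ⟨fun ha => absurd ha hA, fun hb => absurd hb hB⟩
      obtain ⟨k, hk, hAk⟩ := hB
      refine ⟨k, lt_of_le_of_ne hk ?_, hAk, hA⟩
      intro heq
      simp only [heq] at hAk
      exact hA hAk
  refine (pr_mono hcases).trans ((pr_or_le _ _).trans ?_)
  apply add_le_add
  · apply pr_prod_le' _ (by positivity)
    intro W
    exact pr_extremal_le' (fun k : Option (Fin m) => k) (fun _ _ h => h)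
      (fun y => A y (W none)) (fun a b => a ≤ b) le_total
  · refine (pr_exists_le_mul _
      (p := pr (fun x : (α × α) × β => x.1.1 < x.1.2 ∧ A x.1.1 x.2 ∧ ¬ A x.1.2 x.2)) ?_).trans
      (le_of_eq ?_)
    · intro k
      have he : Function.Injective (![some k, none] : Fin 2 → Option (Fin m)) := by
        intro a b hab
        fin_cases a <;> fin_cases b <;> simp_all
      have h1 := pr_comp_inj₂ (α := α) (β := β) ![some k, none] he
        (![none] : Fin 1 → Option (Fin 0)) (Function.injective_of_subsingleton _)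
        (fun z w => z 0 < z 1 ∧ A (z 0) (w 0) ∧ ¬ A (z 1) (w 0))
      have h2 := pr_equiv (Equiv.prodCongr (finTwoArrowEquiv α) (Equiv.funUnique (Fin 1) β))
        (fun x : (α × α) × β => x.1.1 < x.1.2 ∧ A x.1.1 x.2 ∧ ¬ A x.1.2 x.2)
      rw [← h2]
      exact h1.le
    · simp

end

theorem rp_halves : RP true true false false := by
  refine ⟨64 ^ 4, 16, ?_⟩
  intro α β _ _ _ _ _ _ hcard A K hK hδ
  classical
  set δ := pr (fun x : (α × α) × (β × β) => CpH true true false false A x.1.1 x.1.2 x.2.1 x.2.2)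
    with hδdef
  have hδ0 : 0 ≤ δ := pr_nonneg _
  have hK1 : (1 : ℝ) ≤ K := by exact_mod_cast hK
  have hK0 : (0 : ℝ) < K := by linarith
  by_cases hfree : ∀ y y' x x', ¬ CpH true true false false A y y' x x'
  · refine ⟨A, hfree, ?_⟩
    rw [pr_eq_zero (by simp)]
    simp
  push Not at hfree
  obtain ⟨y, y', x, x', hcp⟩ := hfree
  set n : ℝ := (Fintype.card α : ℝ) with hn
  have hnpos : 0 < n := by rw [hn]; exact_mod_cast Fintype.card_pos
  have hβ : (Fintype.card β : ℝ) = n := by rw [hn, hcard]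
  have hlow : 1 / n ^ 4 ≤ δ := by
    have := pr_pos_ge (Q := fun x : (α × α) × (β × β) => CpH true true false false A x.1.1 x.1.2 x.2.1 x.2.2)
      (ω := ((y, y'), (x, x'))) hcp
    refine le_trans (le_of_eq ?_) this
    simp only [Fintype.card_prod]
    push_cast
    rw [hβ]
    ring
  have hPn : ((64 ^ 4 : ℕ) : ℝ) * (K : ℝ) ^ 16 < n ^ 4 := by
    have h1 : ((64 ^ 4 : ℕ) : ℝ) * (K : ℝ) ^ 16 * (1 / n ^ 4) < 1 :=
      lt_of_le_of_lt (by gcongr) hδ
    rw [mul_one_div, div_lt_one (by positivity)] at h1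
    exact h1
  have hnlarge : 64 * (K : ℝ) ^ 4 < n := by
    have h1 : (64 * (K : ℝ) ^ 4) ^ 4 < n ^ 4 := by
      calc (64 * (K : ℝ) ^ 4) ^ 4 = ((64 ^ 4 : ℕ) : ℝ) * (K : ℝ) ^ 16 := by push_cast; ring
        _ < n ^ 4 := hPn
    exact lt_of_pow_lt_pow_left₀ 4 hnpos.le h1
  obtain ⟨R, hR⟩ := mon_error_le A (2 * K)
  refine ⟨monB A (2 * K) R, ?_, ?_⟩
  · rintro y y' x x' ⟨h1, h2, h3, h4, h5, h6⟩
    simp only [iff_true, Bool.false_eq_true, iff_false] at h3 h4 h5 h6
    obtain ⟨k, hk, hAk⟩ := h3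
    exact h5 ⟨k, hk.trans h1.le, hAk⟩
  set η := pr (fun x : (α × α) × β => x.1.1 < x.1.2 ∧ A x.1.1 x.2 ∧ ¬ A x.1.2 x.2) with hη
  have hη0 : 0 ≤ η := pr_nonneg _
  -- η ^ 2 ≤ 2 δ + 1 / n
  have h1 := pr_sq_le (α := β) (γ := α × α) (fun x y => y.1 < y.2 ∧ A y.1 x ∧ ¬ A y.2 x)
  have h3 : pr (fun x : β × (α × α) => x.2.1 < x.2.2 ∧ A x.2.1 x.1 ∧ ¬ A x.2.2 x.1) = η := by
    rw [hη, ← pr_equiv (Equiv.prodComm β (α × α))]
    rfl
  rw [h3] at h1
  have h5 : pr (fun x : (β × β) × (α × α) =>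
      (x.2.1 < x.2.2 ∧ A x.2.1 x.1.1 ∧ ¬ A x.2.2 x.1.1) ∧
      (x.2.1 < x.2.2 ∧ A x.2.1 x.1.2 ∧ ¬ A x.2.2 x.1.2)) ≤ 1 / n + 2 * δ := by
    let Q : (β × β) × (α × α) → Prop := fun x =>
      CpH true true false false A x.2.1 x.2.2 x.1.1 x.1.2
    have hQ : pr Q = δ := by
      rw [hδdef, ← pr_equiv (Equiv.prodComm (β × β) (α × α))]
      rfl
    have e1 : pr (fun x : (β × β) × (α × α) => Q ((x.1.2, x.1.1), x.2)) = δ := by
      rw [← hQ, ← pr_equiv (Equiv.prodCongr (Equiv.prodComm β β) (Equiv.refl (α × α))) Q]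
      rfl
    have e4 : pr (fun x : (β × β) × (α × α) => x.1.1 = x.1.2) = 1 / n := by
      rw [pr_fst (α := β × β) (β := α × α) (fun x => x.1 = x.2), pr_eq_diag, hβ]
    have hsub : ∀ x : (β × β) × (α × α),
        (x.2.1 < x.2.2 ∧ A x.2.1 x.1.1 ∧ ¬ A x.2.2 x.1.1) ∧
        (x.2.1 < x.2.2 ∧ A x.2.1 x.1.2 ∧ ¬ A x.2.2 x.1.2) →
        (x.1.1 = x.1.2) ∨ Q x ∨ Q ((x.1.2, x.1.1), x.2) := by
      rintro ⟨⟨x1, x2⟩, ⟨y1, y2⟩⟩ ⟨⟨a0, a1, a2⟩, ⟨_, a3, a4⟩⟩
      simp only at a0 a1 a2 a3 a4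
      rcases lt_trichotomy x1 x2 with hx | hx | hx
      · right; left
        exact ⟨a0, hx, by simpa using a1, by simpa using a3, by simpa using a2, by simpa using a4⟩
      · left; exact hx
      · right; right
        exact ⟨a0, hx, by simpa using a3, by simpa using a1, by simpa using a4, by simpa using a2⟩
    refine (pr_mono hsub).trans ?_
    refine (pr_or_le _ _).trans ?_
    refine (add_le_add_right (pr_or_le _ _) _).trans ?_
    rw [e1, e4]
    have : pr Q = δ := hQ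
    show 1 / n + (pr Q + δ) ≤ _
    rw [this]
    linarith
  have h6 : η ^ 2 ≤ 1 / n + 2 * δ := h1.trans h5
  -- numerics
  have hK4 : (0 : ℝ) < (K : ℝ) ^ 4 := by positivity
  have h8 : 1 / n * (K : ℝ) ^ 4 < 1 / 64 := by
    rw [div_mul_eq_mul_div, one_mul, div_lt_div_iff₀ hnpos (by norm_num)]
    linarith
  have h9 : δ * (K : ℝ) ^ 4 < 1 / 128 := by
    have a1 : (K : ℝ) ^ 4 ≤ (K : ℝ) ^ 16 := pow_le_pow_right₀ hK1 (by norm_num)
    have a2 : δ * (K : ℝ) ^ 4 ≤ δ * (K : ℝ) ^ 16 := by gcongr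
    have a3 : ((64 ^ 4 : ℕ) : ℝ) = 16777216 := by norm_num
    rw [a3] at hδ
    nlinarith
  have h10 : η ^ 2 * (K : ℝ) ^ 4 < 1 / 16 := by
    calc η ^ 2 * (K : ℝ) ^ 4 ≤ (1 / n + 2 * δ) * (K : ℝ) ^ 4 := by gcongr
      _ = 1 / n * (K : ℝ) ^ 4 + 2 * (δ * (K : ℝ) ^ 4) := by ring
      _ < 1 / 16 := by linarith
  have h11 : η * (K : ℝ) ^ 2 < 1 / 4 := by
    have : (η * (K : ℝ) ^ 2) ^ 2 < (1 / 4) ^ 2 := by
      calc (η * (K : ℝ) ^ 2) ^ 2 = η ^ 2 * (K : ℝ) ^ 4 := by ring
        _ < 1 / 16 := h10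
        _ = (1 / 4) ^ 2 := by norm_num
    exact lt_of_pow_lt_pow_left₀ 2 (by norm_num) this
  calc pr (fun x : α × β => ¬ (A x.1 x.2 ↔ monB A (2 * K) R x.1 x.2)) * K
      ≤ (1 / (((2 * K : ℕ) : ℝ) + 1) + ((2 * K : ℕ) : ℝ) * η) * K := by gcongr
    _ = 1 / (((2 * K : ℕ) : ℝ) + 1) * K + 2 * (η * (K : ℝ) ^ 2) := by push_cast; ring
    _ < 1 / 2 + 2 * (1 / 4) := by
        apply add_lt_add
        · rw [div_mul_eq_mul_div, one_mul, div_lt_div_iff₀ (by positivity) (by norm_num)]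
          push_cast; linarith
        · linarith
    _ = 1 := by norm_num

/-! ### Symmetries -/

theorem rp_compl {a b c d : Bool} (h : RP a b c d) : RP (!a) (!b) (!c) (!d) := by
  obtain ⟨Cst, p, h⟩ := h
  refine ⟨Cst, p, ?_⟩
  intro α β _ _ _ _ _ _ hcard A K hK hδ
  have key : ∀ (A : α → β → Prop) y y' x x',
      CpH (!a) (!b) (!c) (!d) A y y' x x' ↔ CpH a b c d (fun r s => ¬ A r s) y y' x x' := by
    intro A y y' x x'
    unfold CpH
    cases a <;> cases b <;> cases c <;> cases d <;> simp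
  rw [pr_congr (fun x : (α × α) × (β × β) => key A x.1.1 x.1.2 x.2.1 x.2.2)] at hδ
  obtain ⟨B, hB, hd⟩ := h α β hcard (fun r s => ¬ A r s) K hK hδ
  refine ⟨fun r s => ¬ B r s, ?_, ?_⟩
  · intro y y' x x' hc
    rw [key] at hc
    simp only [not_not] at hc
    exact hB y y' x x' hc
  · refine lt_of_eq_of_lt ?_ hd
    congr 1
    apply pr_congr
    intro x
    tauto

theorem rp_transpose {a b c d : Bool} (h : RP a b c d) : RP a c b d := by
  obtain ⟨Cst, p, h⟩ := h
  refine ⟨Cst, p, ?_⟩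
  intro α β _ _ _ _ _ _ hcard A K hK hδ
  have key : ∀ (A : α → β → Prop) y y' x x',
      CpH a c b d A y y' x x' ↔ CpH a b c d (fun s r => A r s) x x' y y' := by
    intro A y y' x x'
    unfold CpH
    tauto
  have h1 : pr (fun x : (α × α) × (β × β) => CpH a c b d A x.1.1 x.1.2 x.2.1 x.2.2) =
      pr (fun x : (β × β) × (α × α) => CpH a b c d (fun s r => A r s) x.1.1 x.1.2 x.2.1 x.2.2) := by
    rw [← pr_equiv (Equiv.prodComm (α × α) (β × β))]
    apply pr_congr
    intro x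
    exact key A _ _ _ _
  rw [h1] at hδ
  obtain ⟨B, hB, hd⟩ := h β α hcard.symm (fun s r => A r s) K hK hδ
  refine ⟨fun r s => B s r, ?_, ?_⟩
  · intro y y' x x' hc
    rw [key] at hc
    exact hB x x' y y' hc
  · refine lt_of_eq_of_lt ?_ hd
    congr 1
    rw [← pr_equiv (Equiv.prodComm α β)]
    rfl

theorem rp_rowrev {a b c d : Bool} (h : RP a b c d) : RP c d a b := by
  obtain ⟨Cst, p, h⟩ := h
  refine ⟨Cst, p, ?_⟩
  intro α β _ _ _ _ _ _ hcard A K hK hδ
  have key : ∀ (A : α → β → Prop) y y' x x',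
      CpH c d a b A y y' x x' ↔
      CpH (α := αᵒᵈ) a b c d (fun r s => A (OrderDual.ofDual r) s)
        (OrderDual.toDual y') (OrderDual.toDual y) x x' := by
    intro A y y' x x'
    unfold CpH
    simp only [OrderDual.toDual_lt_toDual, OrderDual.ofDual_toDual]
    tauto
  have h1 : pr (fun x : (α × α) × (β × β) => CpH c d a b A x.1.1 x.1.2 x.2.1 x.2.2) =
      pr (fun x : (αᵒᵈ × αᵒᵈ) × (β × β) =>
        CpH (α := αᵒᵈ) a b c d (fun r s => A (OrderDual.ofDual r) s) x.1.1 x.1.2 x.2.1 x.2.2) := by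
    rw [← pr_equiv (Equiv.prodCongr ((Equiv.prodComm α α).trans
      (Equiv.prodCongr OrderDual.toDual OrderDual.toDual)) (Equiv.refl (β × β)))]
    apply pr_congr
    intro x
    exact key A _ _ _ _
  rw [h1] at hδ
  obtain ⟨B, hB, hd⟩ := h αᵒᵈ β hcard (fun r s => A (OrderDual.ofDual r) s) K hK hδ
  refine ⟨fun r s => B (OrderDual.toDual r) s, ?_, ?_⟩
  · intro y y' x x' hc
    rw [key] at hc
    exact hB _ _ _ _ hc
  · refine lt_of_eq_of_lt ?_ hd
    congr 1

theorem rp_colrev {a b c d : Bool} (h : RP a b c d) : RP b a d c :=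
  rp_transpose (rp_rowrev (rp_transpose h))

theorem rp_compl' {a b c d a' b' c' d' : Bool} (h : RP a b c d) (ha : a' = !a) (hb : b' = !b)
    (hc : c' = !c) (hd : d' = !d) : RP a' b' c' d' := by
  subst ha hb hc hd
  exact rp_compl h

/-- the removal property for all 2 x 2 patterns -/
theorem rp_all (a b c d : Bool) : RP a b c d := by
  have g1 : RP true true true false := rp_gamma
  have g2 : RP true true false true := rp_colrev g1
  have g3 : RP true false true true := rp_rowrev g1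
  have g4 : RP false true true true := rp_rowrev g2
  have k1 : RP true true false false := rp_halves
  have k2 : RP false false true true := rp_rowrev k1
  have k3 : RP true false true false := rp_transpose k1
  have k4 : RP false true false true := rp_transpose k2
  have d1 : RP true false false true := rp_diag
  have d2 : RP false true true false := rp_rowrev d1
  have o1 : RP true true true true := rp_ones
  have o2 : RP false false false false := rp_compl' o1 rfl rfl rfl rfl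
  have z1 : RP false false false true := rp_compl' g1 rfl rfl rfl rfl
  have z2 : RP false false true false := rp_compl' g2 rfl rfl rfl rfl
  have z3 : RP false true false false := rp_compl' g3 rfl rfl rfl rfl
  have z4 : RP true false false false := rp_compl' g4 rfl rfl rfl rfl
  cases a <;> cases b <;> cases c <;> cases d <;> assumption

end Vale.Agent.P037
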